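import Vale.Agent.P273.CDefs
import Vale.Agent.P273.D14.H741.Upd

/-!
Gluing a new rational vertex with two legs to a leg.
-/

noncomputable section
namespace Vale.Agent.P273.D14.H599
open Sum Vale.Agent.P273
open scoped Classical

variable {V E V' E' M N : Type}

/-- The leg `none` becomes a new edge to a new vertex `none`, which carries the two legs
`ε (inr _)`. -/
def lf (ε : M ⊕ Bool ≃ N) (f : (E × Bool) ⊕ Option M → V × ℕ) :
    (Option E × Bool) ⊕ N → Option V × ℕ :=
  let u := fun y => (f y).map some id
  Sum.elim (fun y => y.1.elim (cond y.2 (none, 0) (u (inr none))) fun e => u (inl (e, y.2)))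
    fun x => (ε.symm x).elim (fun m => u (inr (some m))) fun _ => (none, 0)

/-- The functional on graphs with the leg `none`, given by gluing. -/
def leaf (ε : M ⊕ Bool ≃ N) (s : Q.Fn N) : Q.Fn (Option M) := fun V E a f =>
  s (Option V) (Option E) (Option.elim' (0, 0) a) (lf ε f)

/-- The half-edges of the graph after gluing: those before, and three more at the new vertex. -/
def fl (ε : M ⊕ Bool ≃ N) : ((E × Bool) ⊕ Option M) ⊕ Option Bool ≃ (Option E × Bool) ⊕ N where
  toFun y := y.elim (fun z => z.elim (fun t => inl (some t.1, t.2))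
    fun m => m.elim (inl (none, false)) fun m => inr (ε (inl m)))
    fun b => b.elim (inl (none, true)) fun b => inr (ε (inr b))
  invFun y := y.elim (fun z => z.1.elim (cond z.2 (inr none) (inl (inr none)))
    fun e => inl (inl (e, z.2))) fun n => (ε.symm n).elim (fun m => inl (inr (some m)))
      fun b => inr (some b)
  left_inv := by
    rintro ((⟨e, b⟩ | _ | m) | _ | b) <;> simp
  right_inv := by
    rintro (⟨_ | e, _ | _⟩ | n)
    · rfl
    · rfl
    · rfl
    · rfl
    · rcases h : ε.symm n with m | b
      · simp only [elim_inr, h, elim_inl, Option.elim_some]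
        rw [← h, Equiv.apply_symm_apply]
      · simp only [elim_inr, h, Option.elim_some]
        rw [← h, Equiv.apply_symm_apply]

variable (ε : M ⊕ Bool ≃ N) (f : (E × Bool) ⊕ Option M → V × ℕ)

lemma lf_old (y : (E × Bool) ⊕ Option M) : lf ε f (fl ε (inl y)) = (f y).map some id := by
  rcases y with ⟨e, b⟩ | _ | m
  · rfl
  · rfl
  · simp [lf, fl]

lemma lf_new (y : Option Bool) : lf ε f (fl ε (inr y)) = (none, 0) := by
  rcases y with _ | b
  · rfl
  · simp [lf, fl]

/-- Sums over all half-edges. -/
lemma finsum_lf [Finite E] [Finite M] {A : Type} [AddCommMonoid A] (F : (Option E × Bool) ⊕ N → A) :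
    ∑ᶠ y, F y = ∑ᶠ y : (E × Bool) ⊕ Option M, F (fl ε (inl y)) +
      ∑ᶠ b : Option Bool, F (fl ε (inr b)) := by
  rw [← finsum_comp_equiv (fl ε)]
  have := Fintype.ofFinite ((E × Bool) ⊕ Option M)
  rw [finsum_eq_sum_of_fintype, finsum_eq_sum_of_fintype, finsum_eq_sum_of_fintype,
    Fintype.sum_sum_type]

lemma sum_lf [Finite E] [Finite M] : ∑ᶠ y, (lf ε f y).2 = ∑ᶠ y, (f y).2 := by
  rw [finsum_lf ε]
  simp only [lf_old, lf_new, finsum_zero, add_zero]
  rfl

lemma sum_lf_at [Finite E] [Finite M] (v : V) : ∑ᶠ (y) (_ : (lf ε f y).1 = some v), (lf ε f y).2 =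
    ∑ᶠ (y) (_ : (f y).1 = v), (f y).2 := by
  rw [finsum_lf ε]
  simp only [lf_old, lf_new, finsum_zero, add_zero, Prod.map_fst, Prod.map_snd, Option.some.injEq,
    id_eq]

lemma nv_lf (v : V) : Q.nv (lf ε f) (some v) = Q.nv f v := by
  unfold Q.nv
  symm
  refine Nat.card_congr (Equiv.ofBijective (fun y => ⟨fl ε (inl y.1), by
    rw [lf_old]
    exact congrArg some y.2⟩) ⟨?_, ?_⟩)
  · intro y z h
    have := congrArg Subtype.val h
    exact Subtype.ext (inl_injective ((fl ε).injective this))
  · rintro ⟨y, hy⟩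
    obtain ⟨z | z, rfl⟩ := (fl ε).surjective y
    · rw [lf_old] at hy
      exact ⟨⟨z, Option.some_injective _ hy⟩, rfl⟩
    · rw [lf_new] at hy
      exact absurd hy (by simp)

lemma nv_lf_none : Q.nv (lf ε f) none = 3 := by
  unfold Q.nv
  have : Nat.card (Option Bool) = 3 := by simp
  rw [← this]
  symm
  refine Nat.card_congr (Equiv.ofBijective (fun y => ⟨fl ε (inr y), by rw [lf_new]⟩) ⟨?_, ?_⟩)
  · intro y z h
    have := congrArg Subtype.val h
    exact inr_injective ((fl ε).injective this)
  · rintro ⟨y, hy⟩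
    obtain ⟨z | z, rfl⟩ := (fl ε).surjective y
    · rw [lf_old] at hy
      exact absurd hy (by simp)
    · exact ⟨z, rfl⟩

lemma lf_conn (h : ∀ s : Set (Option V), (∀ e, (lf ε f (inl (e, true))).1 ∈ s ↔
      (lf ε f (inl (e, false))).1 ∈ s) → s = ∅ ∨ s = Set.univ) (s : Set V)
    (hs : ∀ e, (f (inl (e, true))).1 ∈ s ↔ (f (inl (e, false))).1 ∈ s) :
    s = ∅ ∨ s = Set.univ := by
  have h1 := h {v | v.elim ((f (inr none)).1 ∈ s) (· ∈ s)} (by
    rintro (_ | e)
    · exact Iff.rfl
    · exact hs e)
  rcases h1 with h1 | h1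
  · left
    ext v
    have : some v ∈ {v : Option V | v.elim ((f (inr none)).1 ∈ s) (· ∈ s)} ↔
      some v ∈ (∅ : Set (Option V)) := by rw [h1]
    simpa using this
  · right
    ext v
    have : some v ∈ {v : Option V | v.elim ((f (inr none)).1 ∈ s) (· ∈ s)} ↔
      some v ∈ (Set.univ : Set (Option V)) := by rw [h1]
    simpa using this

lemma lf_conn' (h : ∀ s : Set V, (∀ e, (f (inl (e, true))).1 ∈ s ↔ (f (inl (e, false))).1 ∈ s) →
      s = ∅ ∨ s = Set.univ) (s : Set (Option V)) (hs : ∀ e, (lf ε f (inl (e, true))).1 ∈ s ↔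
      (lf ε f (inl (e, false))).1 ∈ s) : s = ∅ ∨ s = Set.univ := by
  have h0 : none ∈ s ↔ some (f (inr none)).1 ∈ s := hs none
  rcases h (some ⁻¹' s) (fun e => hs (some e)) with h1 | h1
  · left
    have h2 : ∀ v, some v ∉ s := fun v hv => by
      have : v ∈ some ⁻¹' s := hv
      rw [h1] at this
      exact this
    ext v
    cases v with
    | none => exact ⟨fun hn => absurd (h0.1 hn) (h2 _), fun hn => absurd hn (Set.notMem_empty _)⟩
    | some v => exact ⟨fun hn => absurd hn (h2 _), fun hn => absurd hn (Set.notMem_empty _)⟩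
  · right
    have h2 : ∀ v, some v ∈ s := fun v => by
      have : v ∈ some ⁻¹' s := by rw [h1]; trivial
      exact this
    ext v
    cases v with
    | none => exact ⟨fun _ => trivial, fun _ => h0.2 (h2 _)⟩
    | some v => exact ⟨fun _ => trivial, fun _ => h2 _⟩

lemma finsum_opt [Finite V] {A : Type} [AddCommMonoid A] (F : Option V → A) :
    ∑ᶠ v, F v = F none + ∑ᶠ v, F (some v) := by
  have := Fintype.ofFinite V
  rw [finsum_eq_sum_of_fintype, finsum_eq_sum_of_fintype, Fintype.sum_option]

lemma stab_lf [Finite M] (a : V → ℕ × Multiset ℕ) (g d : ℕ) :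
    Q.Stab (Option.elim' (0, 0) a) (lf ε f) g (d + 1) ↔ Q.Stab a f g d := by
  constructor
  · rintro ⟨h1, h2, h3, h4, h5, h6, h7⟩
    have hV : Finite V := Finite.of_injective _ (Option.some_injective V)
    have hE : Finite E := Finite.of_injective _ (Option.some_injective E)
    refine ⟨hV, hE, ⟨(f (inr none)).1⟩, lf_conn ε f h4, ?_, ?_, ?_⟩
    · rw [finsum_opt, Finite.card_option, Finite.card_option] at h5
      simp only [Option.elim'] at h5
      omega
    · intro v
      have := h6 (some v)
      rw [nv_lf] at this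
      exact this
    · rw [sum_lf, finsum_opt, Finite.card_option] at h7
      simp only [Option.elim', Multiset.sum_zero] at h7
      omega
  · rintro ⟨hV, hE, h3, h4, h5, h6, h7⟩
    refine ⟨inferInstance, inferInstance, inferInstance, lf_conn' ε f h4, ?_, ?_, ?_⟩
    · rw [finsum_opt, Finite.card_option, Finite.card_option]
      simp only [Option.elim']
      omega
    · rintro (_ | v)
      · rw [nv_lf_none]
        omega
      · rw [nv_lf]
        exact h6 v
    · rw [sum_lf, finsum_opt, Finite.card_option]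
      simp only [Option.elim', Multiset.sum_zero]
      omega

lemma valid_lf [Finite M] (a : V → ℕ × Multiset ℕ) (g d : ℕ) :
    Q.Valid (Option.elim' (0, 0) a) (lf ε f) g (d + 1) ↔ Q.Valid a f g d := by
  unfold Q.Valid
  rw [stab_lf]
  refine and_congr_right fun hst => ?_
  have hE : Finite E := hst.2.1
  constructor
  · intro h v
    have := h (some v)
    rw [sum_lf_at, nv_lf] at this
    exact this
  · rintro h (_ | v)
    · rw [nv_lf_none, finsum_lf ε]
      simp only [lf_old, lf_new, finsum_zero, add_zero, Prod.map_fst, Option.elim',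
        Multiset.sum_zero, reduceCtorEq, finsum_false]
      omega
    · rw [sum_lf_at, nv_lf]
      exact h v

/-- Gluing preserves the trivial relations. -/
theorem tr_leaf [Finite M] {s : Q.Fn N} {g d : ℕ} (hs : Q.Tr g (d + 1) s) :
    Q.Tr g d (leaf ε s) := by
  refine ⟨?_, ?_, ?_⟩
  · intro V E a f h
    exact hs.1 _ _ _ _ (fun h' => h ((valid_lf ε f a g d).1 h'))
  · intro V E V' E' a f f' p q hp hq hs2 hf
    have key := hs.2.1 (Option V) (Option E) (Option V') (Option E') (Option.elim' (0, 0) a)
      (lf ε f) (lf ε f') (Option.map p)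
      (fun y => y.1.elim (none, y.2) fun e => (some (q (e, y.2)).1, (q (e, y.2)).2))
      ⟨Option.map_injective hp.1, ?_⟩ ⟨?_, ?_⟩ ?_ ?_
    · unfold leaf
      rw [← key]
      congr 1
      funext v
      cases v <;> rfl
    · rintro (_ | v)
      · exact ⟨none, rfl⟩
      · obtain ⟨u, rfl⟩ := hp.2 v
        exact ⟨some u, rfl⟩
    · rintro ⟨_ | e, s⟩ ⟨_ | e', s'⟩ h
      · simpa using h
      · simp at h
      · simp at h
      · simp only [Option.elim_some, Prod.mk.injEq, Option.some.injEq] at h
        have h2 : q (e, s) = q (e', s') := Prod.ext h.1 h.2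
        have h3 := hq.1 h2
        rw [Prod.mk.injEq] at h3
        rw [h3.1, h3.2]
    · rintro ⟨_ | e, s⟩
      · exact ⟨(none, s), rfl⟩
      · obtain ⟨⟨e', s'⟩, h⟩ := hq.2 (e, s)
        refine ⟨(some e', s'), ?_⟩
        simp only [Option.elim_some, h]
    · rintro (_ | e)
      · rfl
      · exact congrArg some (hs2 e)
    · have h1 : ∀ y : (E × Bool) ⊕ Option M, ((f' (y.map q id)).map some id : Option V' × ℕ) =
          ((f y).map some id : Option V × ℕ).map (Option.map p) id := by
        intro y
        rw [hf]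
        rfl
      rintro (⟨_ | e, _ | _⟩ | n)
      · exact h1 (inr none)
      · rfl
      · exact h1 (inl (e, false))
      · exact h1 (inl (e, true))
      · rcases hn : ε.symm n with m | b
        · simp only [lf, map_inr, elim_inr, id_eq, hn, elim_inl]
          exact h1 (inr (some m))
        · simp only [lf, map_inr, elim_inr, id_eq, hn]
          rfl
  · intro V E a f v
    have h := hs.2.2 (Option V) (Option E) (Option.elim' (0, 0) a) (lf ε f) (some v)
    have e1 : (Option.elim' (0, 0) a (some v) : ℕ × Multiset ℕ) = a v := rfl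
    have e2 : Option.elim' ((0, 0) : ℕ × Multiset ℕ) (Function.update a v ((a v).1, 0 ::ₘ (a v).2)) =
        Function.update (Option.elim' (0, 0) a) (some v) ((a v).1, 0 ::ₘ (a v).2) := by
      funext u
      rcases u with _ | u
      · rw [Function.update_of_ne (by simp)]
        rfl
      · by_cases hu : u = v
        · subst hu
          simp
        · rw [Function.update_of_ne (by simpa using hu)]
          simp [Function.update_of_ne hu]
    unfold leaf
    rw [e2]
    rw [e1, nv_lf] at h
    refine Eq.trans ?_ h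
    exact congrArg (fun z => s _ _ z _) (upd_eq _ _ _ _ _)

end Vale.Agent.P273.D14.H599
end
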