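import Vale.Agent.P273.D14.H599.LKB
import Vale.Agent.P273.D14.H387.GBR
import Vale.Agent.P273.D14.H17.LeafMove

/-!
The functional `G` with a leaf at the leg `none` is killed by the dual of the forgetful pullback.
-/

noncomputable section
namespace Vale.Agent.P273.D14.H599
open Sum Vale.Agent.P273 Vale.Agent.P273.D14.H387
open scoped Classical

variable {V E M : Type} {ε : M ⊕ Bool ≃ LL} {a : V → ℕ × Multiset ℕ} {f : (E × Bool) ⊕ M → V × ℕ}
  {v w : V}

lemma bub_zero {φ : Und} (z : (E × Bool) ⊕ M) (a' : Option (Option V) → ℕ × Multiset ℕ) :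
    H387.G φ (Option (Option V)) (Option (Option E)) a' (lf ε (Q.bub f z)) = 0 := by
  by_contra hG
  obtain ⟨i, hi⟩ := sp_G' hG true (some none)
  obtain ⟨j, hj⟩ := sp_G' hG false (some none)
  have key : ∀ n, (lf ε (Q.bub f z) (inr n)).1 = some none → ∃ m, z = inr m ∧ n = ε (inl m) := by
    intro n hn
    rw [lf_inr] at hn
    rcases hm : ε.symm n with m | b
    · rw [hm] at hn
      refine ⟨m, ?_, by rw [← hm, Equiv.apply_symm_apply]⟩
      by_contra hne
      have h1 : Q.bub f z (inr (some m)) = (f (inr m)).map some id := by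
        show Function.update (fun y => (f y).map some id) z (none, 0) (inr m) = _
        rw [Function.update_of_ne (Ne.symm hne)]
      simp only [elim_inl, h1] at hn
      exact absurd hn (by simp)
    · rw [hm] at hn
      exact absurd hn (by simp)
  obtain ⟨m, hm, hn⟩ := key _ hi
  obtain ⟨m', hm', hn'⟩ := key _ hj
  have h1 : m = m' := inr_injective (hm.symm.trans hm')
  rw [h1, ← hn'] at hn
  exact absurd (congrArg Prod.snd hn) (by simp)

lemma kt_ne [Finite E] [Finite M] {φ : Und} {k : ℕ} {K : Multiset ℕ} (hk : k ≠ 0)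
    (h : H387.G0 φ (Option.elim' (0, 0) (Function.update a v ((a v).1, K)))
      (lf ε (Q.ad f v k)) ≠ 0) : (a v).1 = 1 ∧ (∀ u, u ≠ v → a u = (0, 0)) ∧
      (∀ y, (f y).2 ≠ 0 → (f y).1 = v) ∧ K = 0 ∧ k = 1 ∧ ∑ᶠ y, (f y).2 = 0 := by
  rcases G0_ne h with ⟨h1, -⟩ | ⟨w', h1, h2⟩
  · exact absurd ((ty1_lf ε _ f v k).1 h1).2 hk
  · rcases w' with _ | w
    · exact absurd h1 (not_ty_none _ _)
    obtain ⟨h3, h4⟩ := (ty_lf ε _ f v w k).1 h1
    have h5 := h4 hk
    subst h5
    have h6 : ∑ᶠ y, (lf ε (Q.ad f v k) y).2 = ∑ᶠ y, (f y).2 + k := by rw [sum_lf, sum_ad]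
    have h7 : (Option.elim' ((0, 0) : ℕ × Multiset ℕ) (Function.update a v ((a v).1, K))
      (some v)) = ((a v).1, K) := by simp
    rw [h6, h7] at h2
    obtain ⟨h8, h9, h10⟩ := h3
    rw [Function.update_self] at h8
    refine ⟨h8, fun u hu => ?_, h10, ?_⟩
    · have := h9 u hu
      rwa [Function.update_of_ne hu] at this
    · rcases h2 with ⟨-, h2, -⟩ | ⟨h2, h2', -⟩ | ⟨-, -, h2, -⟩
      · omega
      · exact ⟨h2, by omega, by omega⟩
      · exact absurd ((onL_lf ε f v k).1 h2).2 hk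

lemma main_ne [Finite E] [Finite M] {φ : Und}
    (h : H387.G0 φ (Option.elim' (0, 0) a) (lf ε (Q.ad f v 0)) ≠ 0) :
    Ty1 a f ∨ ∃ w, Ty a f w ∧ (((a w).2 = {1} ∧ ∑ᶠ y, (f y).2 = 0) ∨
      ((a w).2 = 0 ∧ ∑ᶠ y, (f y).2 = 1) ∨ ((a w).2 = 0 ∧ ∑ᶠ y, (f y).2 = 2 ∧ OnL f)) := by
  rcases G0_ne h with ⟨h1, -⟩ | ⟨w', h1, h2⟩
  · exact Or.inl ((ty1_lf ε _ f v 0).1 h1).1
  · rcases w' with _ | w
    · exact absurd h1 (not_ty_none _ _)
    refine Or.inr ⟨w, ((ty_lf ε _ f v w 0).1 h1).1, ?_⟩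
    have h6 : ∑ᶠ y, (lf ε (Q.ad f v 0) y).2 = ∑ᶠ y, (f y).2 := by rw [sum_lf, sum_ad, add_zero]
    rw [h6] at h2
    rcases h2 with ⟨h3, h4, -⟩ | ⟨h3, h4, -⟩ | ⟨h3, h4, h5, -⟩
    · exact Or.inl ⟨h3, h4⟩
    · exact Or.inr (Or.inl ⟨h3, h4⟩)
    · exact Or.inr (Or.inr ⟨h3, h4, ((onL_lf ε f v 0).1 h5).1⟩)

theorem LK0 [Finite M] {φ : Und} (hφ : φ.Inv) (hLI : LI φ) (hk : ∀ v, 0 ∉ (a v).2) :
    Q.pull 2 8 (leaf ε (H387.G φ)) V E a f = 0 := by
  unfold Q.pull
  rw [finsum_eq_if]
  split_ifs with hS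
  swap
  · rfl
  have : Finite V := hS.1
  have : Finite E := hS.2.1
  have := Fintype.ofFinite V
  have hg : ∑ᶠ v, (a v).1 + Nat.card E + 1 = 2 + Nat.card V := hS.2.2.2.2.1
  have hb : ∑ᶠ (z) (_ : (f z).2 ≠ 0), leaf ε (H387.G φ) (Option V) (Option E)
      (Option.elim' (0, 0) a) (Q.bub f z) = 0 := by
    apply finsum_eq_zero_of_forall_eq_zero
    intro z
    rw [finsum_eq_if]
    split_ifs
    · exact bub_zero z _
    · rfl
  rw [hb, sub_zero]
  have hmain : ∀ v, leaf ε (H387.G φ) V E a (Q.ad f v 0) =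
      H387.G0 φ (Option.elim' (0, 0) a) (lf ε (Q.ad f v 0)) := by
    intro v
    apply G_stab
    · rw [stab_lf]
      have := stab_ad a f v 0 (K := (a v).2) (g := 2) (d := 8) (by simp) hS
      rwa [show ((a v).1, (a v).2) = a v from rfl, Function.update_eq_self] at this
    · rintro (_ | u)
      · simp
      · exact hk u
  have hkap : ∀ v, ∀ k ∈ (a v).2,
      leaf ε (H387.G φ) V E (Function.update a v ((a v).1, (a v).2.erase k)) (Q.ad f v k) =
      H387.G0 φ (Option.elim' (0, 0) (Function.update a v ((a v).1, (a v).2.erase k)))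
        (lf ε (Q.ad f v k)) := by
    intro v k hkv
    apply G_stab
    · rw [stab_lf]
      apply stab_ad _ _ _ _ _ hS
      rw [add_comm, ← Multiset.sum_cons, Multiset.cons_erase hkv]
    · rintro (_ | u)
      · simp
      · by_cases hu : u = v
        · subst hu
          simp only [Option.elim', Function.update_self]
          exact fun h => hk u (Multiset.mem_of_mem_erase h)
        · simp only [Option.elim', Function.update_of_ne hu]
          exact hk u
  have hterm : ∀ v, leaf ε (H387.G φ) V E a (Q.ad f v 0) - ((a v).2.map fun k =>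
      leaf ε (H387.G φ) V E (Function.update a v ((a v).1, (a v).2.erase k)) (Q.ad f v k)).sum =
      H387.G0 φ (Option.elim' (0, 0) a) (lf ε (Q.ad f v 0)) - ((a v).2.map fun k =>
      H387.G0 φ (Option.elim' (0, 0) (Function.update a v ((a v).1, (a v).2.erase k)))
        (lf ε (Q.ad f v k))).sum := by
    intro v
    rw [hmain v, Multiset.map_congr rfl fun k hk' => hkap v k hk']
  rw [finsum_congr hterm]
  -- without kappa classes
  have nokap : ∀ u, (a u).2 = 0 → ((a u).2.map fun k =>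
      H387.G0 φ (Option.elim' (0, 0) (Function.update a u ((a u).1, (a u).2.erase k)))
        (lf ε (Q.ad f u k))).sum = 0 := by
    intro u hu
    rw [hu]
    simp
  by_cases h1 : Ty1 a f
  · have e1 : ∀ u, H387.G0 φ (Option.elim' (0, 0) a) (lf ε (Q.ad f u 0)) =
        sg1 ε f * φ (Option V) (Option E) (lfU (he f) u) := by
      intro u
      rw [G0_ty1 ((ty1_lf ε a f u 0).2 ⟨h1, rfl⟩), val_lf]
    have e2 : ∑ᶠ v, (a v).1 = 0 := finsum_eq_zero_of_forall_eq_zero fun v => by rw [h1.1 v]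
    have e3 := hLI V E (he f) (by omega)
    rw [finsum_congr fun u => by rw [e1, nokap u (by rw [h1.1 u]), sub_zero]]
    rw [finsum_eq_sum_of_fintype] at e3 ⊢
    rw [← Finset.mul_sum, e3, mul_zero]
  by_cases h2 : ∃ w, Ty a f w ∧ (((a w).2 = {1} ∧ ∑ᶠ y, (f y).2 = 0) ∨
      ((a w).2 = 0 ∧ ∑ᶠ y, (f y).2 = 1) ∨ ((a w).2 = 0 ∧ ∑ᶠ y, (f y).2 = 2 ∧ OnL f))
  · obtain ⟨w, hw, h3⟩ := h2
    have e2 : ∑ᶠ v, (a v).1 = 1 := by
      rw [finsum_single' _ w fun u hu => by rw [hw.2.1 u hu], hw.1]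
    have hsum : ∀ u, ∑ᶠ y, (lf ε (Q.ad f u 0) y).2 = ∑ᶠ y, (f y).2 := fun u => by
      rw [sum_lf, sum_ad, add_zero]
    have hty : ∀ u, Ty (Option.elim' (0, 0) a) (lf ε (Q.ad f u 0)) (some w) := fun u =>
      (ty_lf ε a f u w 0).2 ⟨hw, fun h => absurd rfl h⟩
    have e3 := hLI V (Option E) (lpU (he f) w) (by rw [Finite.card_option]; omega)
    rcases h3 with ⟨h3, h4⟩ | ⟨h3, h4⟩ | ⟨h3, h4, h5⟩
    · have e4 : ∀ u, H387.G0 φ (Option.elim' (0, 0) a) (lf ε (Q.ad f u 0)) =
          (Q.nv f w + if u = w then 1 else 0 : ℚ) / 24 *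
            (sg1 ε f * φ (Option V) (Option (Option E)) (lfU (lpU (he f) w) u)) := by
        intro u
        rw [G0_kap (hty u) h3 ((hsum u).trans h4), val_lp _ _ _ _ _ hφ, nv_lf_ad]
        push_cast
        rfl
      have e5 : ∀ u, ((a u).2.map fun k =>
          H387.G0 φ (Option.elim' (0, 0) (Function.update a u ((a u).1, (a u).2.erase k)))
            (lf ε (Q.ad f u k))).sum = (if u = w then 1 else 0 : ℚ) / 24 *
            (sg1 ε f * φ (Option V) (Option (Option E)) (lfU (lpU (he f) w) u)) := by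
        intro u
        by_cases hu : u = w
        · subst hu
          rw [h3, Multiset.map_singleton, Multiset.sum_singleton, if_pos rfl]
          have h6 : ({1} : Multiset ℕ).erase 1 = 0 := by simp
          rw [h6, G0_psi (w := some u), val_lp _ _ _ _ _ hφ]
          · rw [ty_lf]
            refine ⟨⟨?_, fun v hv => ?_, hw.2.2⟩, fun _ => rfl⟩
            · rw [Function.update_self]; exact hw.1
            · rw [Function.update_of_ne hv]; exact hw.2.1 v hv
          · simp
          · rw [sum_lf, sum_ad, h4]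
        · rw [nokap u (by rw [hw.2.1 u hu]), if_neg hu]
          ring
      rw [finsum_congr fun u => by rw [e4, e5, ← sub_mul, ← sub_div, add_sub_cancel_right]]
      rw [finsum_eq_sum_of_fintype] at e3 ⊢
      rw [← Finset.mul_sum, ← Finset.mul_sum, e3, mul_zero, mul_zero]
    · have e4 : ∀ u, H387.G0 φ (Option.elim' (0, 0) a) (lf ε (Q.ad f u 0)) =
          1 / 24 * (sg1 ε f * φ (Option V) (Option (Option E)) (lfU (lpU (he f) w) u)) := by
        intro u
        rw [G0_psi (hty u) h3 ((hsum u).trans h4), val_lp _ _ _ _ _ hφ]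
      have e5 : ∀ u, (a u).2 = 0 := by
        intro u
        by_cases hu : u = w
        · rw [hu, h3]
        · rw [hw.2.1 u hu]
      rw [finsum_congr fun u => by rw [e4, nokap u (e5 u), sub_zero]]
      rw [finsum_eq_sum_of_fintype] at e3 ⊢
      rw [← Finset.mul_sum, ← Finset.mul_sum, e3, mul_zero, mul_zero]
    · have e4 : ∀ u, H387.G0 φ (Option.elim' (0, 0) a) (lf ε (Q.ad f u 0)) =
          1 / 24 * ∑ᶠ (S) (_ : Spl (lf ε (Q.ad f u 0)) (some w) S),
            val φ (db (fun y => (lf ε (Q.ad f u 0) y).1) (some w) S) := by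
        intro u
        rw [G0_db (hty u) h3 ((hsum u).trans h4) ((onL_lf ε f u 0).2 ⟨h5, rfl⟩)]
      have e5 : ∀ u, (a u).2 = 0 := by
        intro u
        by_cases hu : u = w
        · rw [hu, h3]
        · rw [hw.2.1 u hu]
      rw [finsum_congr fun u => by rw [e4, nokap u (e5 u), sub_zero]]
      have e6 := sum_db (ε := ε) (f := f) hφ hLI w (by omega)
      rw [finsum_eq_sum_of_fintype] at e6 ⊢
      rw [← Finset.mul_sum, e6, mul_zero]
  · apply finsum_eq_zero_of_forall_eq_zero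
    intro u
    have e1 : H387.G0 φ (Option.elim' (0, 0) a) (lf ε (Q.ad f u 0)) = 0 := by
      by_contra h3
      rcases main_ne h3 with h4 | h4
      · exact h1 h4
      · exact h2 h4
    rw [e1, zero_sub, neg_eq_zero]
    apply Multiset.sum_eq_zero
    intro x hx
    rw [Multiset.mem_map] at hx
    obtain ⟨k, hku, rfl⟩ := hx
    by_contra h3
    have hk0 : k ≠ 0 := fun h => hk u (h ▸ hku)
    obtain ⟨h4, h5, h6, h7, h8, h9⟩ := kt_ne hk0 h3
    apply h2
    refine ⟨u, ⟨h4, h5, h6⟩, Or.inl ⟨?_, h9⟩⟩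
    rw [← Multiset.cons_erase hku, h7, h8]
    rfl

/-- Removing the classes `κ_0`. -/
lemma no_zero [Finite M] {s : Q.Fn (Option M)} {g d : ℕ} (hs : Q.Tr g d s)
    (h0 : ∀ (V E : Type) a (f : (E × Bool) ⊕ M → V × ℕ), (∀ v, 0 ∉ (a v).2) →
      Q.pull g d s V E a f = 0) (V E : Type) (a : V → ℕ × Multiset ℕ)
    (f : (E × Bool) ⊕ M → V × ℕ) : Q.pull g d s V E a f = 0 := by
  by_cases hV : Finite V
  swap
  · unfold Q.pull
    rw [finsum_eq_if, if_neg (fun h => hV h.1)]
  have := Fintype.ofFinite V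
  obtain ⟨n, hn⟩ : ∃ n, n = ∑ v, (a v).2.count 0 := ⟨_, rfl⟩
  induction n generalizing a with
  | zero =>
    apply h0
    intro v hv
    have h1 := (Finset.sum_eq_zero_iff.1 hn.symm) v (Finset.mem_univ v)
    rw [Multiset.count_eq_zero] at h1
    exact h1 hv
  | succ n ih =>
    obtain ⟨v, hv⟩ : ∃ v, 0 ∈ (a v).2 := by
      by_contra hcon
      push Not at hcon
      rw [Finset.sum_eq_zero fun v _ => Multiset.count_eq_zero.2 (hcon v)] at hn
      omega
    have e1 : Function.update (Function.update a v ((a v).1, (a v).2.erase 0)) v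
        ((Function.update a v ((a v).1, (a v).2.erase 0) v).1,
        0 ::ₘ (Function.update a v ((a v).1, (a v).2.erase 0) v).2) = a := by
      rw [Function.update_idem, Function.update_self]
      simp only [Multiset.cons_erase hv]
      exact Function.update_eq_self _ _
    have h1 := pull_dil hs V E (Function.update a v ((a v).1, (a v).2.erase 0)) f v
    rw [e1] at h1
    rw [h1, ih, mul_zero]
    rw [← Finset.add_sum_erase _ _ (Finset.mem_univ v)] at hn
    rw [← Finset.add_sum_erase _ _ (Finset.mem_univ v), Function.update_self]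
    have e2 : ∑ u ∈ Finset.univ.erase v, Multiset.count 0
        (Function.update a v ((a v).1, (a v).2.erase 0) u).2 =
        ∑ u ∈ Finset.univ.erase v, Multiset.count 0 (a u).2 := by
      apply Finset.sum_congr rfl
      intro u hu
      rw [Function.update_of_ne (Finset.ne_of_mem_erase hu)]
    have e3 : 0 < (a v).2.count 0 := Multiset.count_pos.2 hv
    rw [e2, Multiset.count_erase_self]
    omega

theorem LK {φ : Und} (hφ : φ.Inv) (hLI : LI φ) (ε : M ⊕ Bool ≃ LL) (V E : Type)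
    (a : V → ℕ × Multiset ℕ) (f : (E × Bool) ⊕ M → V × ℕ) :
    Q.pull 2 8 (leaf ε (H387.G φ)) V E a f = 0 := by
  have : Finite M := Finite.of_injective (fun m => ε (inl m))
    (fun x y h => inl_injective (ε.injective h))
  exact no_zero (tr_leaf ε (tr_G hφ)) (fun V E a f hk => LK0 hφ hLI hk) V E a f

/-- Reordering. -/
def e0 : M ⊕ Bool ≃ Option (Option M) where
  toFun y := y.elim (fun m => some (some m)) fun b => cond b none (some none)
  invFun y := y.elim (inr true) fun z => z.elim (inr false) inl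
  left_inv := by rintro (m | _ | _) <;> rfl
  right_inv := by rintro (_ | _ | m) <;> rfl

lemma lk_eq {N : Type} (δ : Option (Option M) ≃ N) (s : Q.Fn N) (V E : Type)
    (a : V → ℕ × Multiset ℕ) (f : (E × Bool) ⊕ Option M → V × ℕ) :
    H17.lk (Mv.rb δ s) V E a f = leaf (e0.trans δ) s V E a f := by
  have h : (fun y : (Option E × Bool) ⊕ N => (H17.leafG (⟨a, f⟩ : Gr V E (Option M))).hf
      (y.map id δ.symm)) = lf (e0.trans δ) f := by
    funext y
    rcases y with ⟨_ | e, _ | _⟩ | n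
    · rfl
    · rfl
    · rfl
    · rfl
    · obtain ⟨o, rfl⟩ := δ.surjective n
      rw [lf_inr]
      simp only [map_inr, Equiv.symm_apply_apply, Equiv.symm_trans_apply]
      rcases o with _ | _ | m <;> rfl
  exact congrArg (s (Option V) (Option E) (Option.elim' (0, 0) a)) h

/-- The form used for moving leaves. -/
theorem killsLf_G {φ : Und} (hφ : φ.Inv) (hLI : LI φ) {i j : LL} (hij : i ≠ j) :
    H17.KillsLf 2 8 (H387.G φ) i j := by
  refine ⟨{z : {y : LL // y ≠ i} // z ≠ ⟨j, hij.symm⟩},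
    (Equiv.optionCongr (Equiv.optionSubtypeNe (⟨j, hij.symm⟩ : {y : LL // y ≠ i}))).trans
      (Equiv.optionSubtypeNe i), by simp, by simp, fun V E a f => ?_⟩
  rw [show H17.lk (Mv.rb _ (H387.G φ)) = leaf (e0.trans _) (H387.G φ) from by
    funext V E a f
    exact lk_eq _ _ V E a f]
  exact LK hφ hLI _ V E a f

end Vale.Agent.P273.D14.H599
end
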