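import Vale.Agent.P273.D14.Move1
import Vale.Agent.P273.D14.H741.Upd

/-!
The dual of the forgetful pullback preserves the rule for `κ_0`.
-/

noncomputable section
namespace Vale.Agent.P273.D14.H599
open Sum Vale.Agent.P273 Vale.Agent.P273.C1.R3B Vale.Agent.P273.C1.R1B
open scoped Classical

variable {V E L : Type}

lemma nv_ad [Finite E] [Finite L] (f : (E × Bool) ⊕ L → V × ℕ) (u : V) (c : ℕ) (v : V) :
    Q.nv (Q.ad f u c) v = Q.nv f v + if u = v then 1 else 0 := by
  have h := Mv.nv_addLeg (⟨fun _ => (0, 0), f⟩ : Gr V E L) u 0 c v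
  exact h

lemma nv_bub [Finite E] [Finite L] (f : (E × Bool) ⊕ L → V × ℕ) (z : (E × Bool) ⊕ L) (v : V) :
    Q.nv (Q.bub f z) (some v) = Q.nv f v := by
  have h := Mv.nv_bubble (⟨fun _ => (0, 0), f⟩ : Gr V E L) z v
  exact h

lemma elim_update (a : V → ℕ × Multiset ℕ) (v : V) (c : ℕ × Multiset ℕ) :
    Option.elim' ((0, 0) : ℕ × Multiset ℕ) (Function.update a v c) =
      Function.update (Option.elim' (0, 0) a) (some v) c := by
  funext u
  rcases u with _ | u
  · rw [Function.update_of_ne (by simp)]
    rfl
  · by_cases hu : u = v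
    · subst hu
      simp
    · rw [Function.update_of_ne (by simpa using hu)]
      simp [Function.update_of_ne hu]

theorem pull_dil [Finite L] {s : Q.Fn (Option L)} {g d : ℕ} (hs : Q.Tr g d s) (V E : Type)
    (a : V → ℕ × Multiset ℕ) (f : (E × Bool) ⊕ L → V × ℕ) (v : V) :
    Q.pull g d s V E (Function.update a v ((a v).1, 0 ::ₘ (a v).2)) f =
      (2 * ((a v).1 : ℚ) - 2 + Q.nv f v + (a v).2.card) * Q.pull g d s V E a f := by
  have hst : Q.Stab (Function.update a v ((a v).1, 0 ::ₘ (a v).2)) f g d ↔ Q.Stab a f g d := by
    have h1 : ∀ u, (Function.update a v ((a v).1, 0 ::ₘ (a v).2) u).1 = (a u).1 := by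
      intro u
      by_cases h : u = v
      · subst h; simp
      · rw [Function.update_of_ne h]
    have h2 : ∀ u, (Function.update a v ((a v).1, 0 ::ₘ (a v).2) u).2.sum = (a u).2.sum := by
      intro u
      by_cases h : u = v
      · subst h; simp
      · rw [Function.update_of_ne h]
    unfold Q.Stab
    simp only [h1, h2]
  unfold Q.pull
  rw [finsum_eq_if, finsum_eq_if]
  by_cases hS : Q.Stab a f g d
  swap
  · rw [if_neg hS, if_neg (fun h => hS (hst.1 h)), mul_zero]
  rw [if_pos hS, if_pos (hst.2 hS)]
  have : Finite V := hS.1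
  have : Finite E := hS.2.1
  have := Fintype.ofFinite V
  rw [mul_sub]
  congr 1
  · rw [finsum_eq_sum_of_fintype, finsum_eq_sum_of_fintype, Finset.mul_sum]
    apply Finset.sum_congr rfl
    intro u _
    have h0 := hs.2.2 V E a (Q.ad f u 0) v
    rw [nv_ad] at h0
    by_cases huv : u = v
    · subst huv
      rw [if_pos rfl] at h0
      rw [h0, Function.update_self, Multiset.map_cons, Multiset.sum_cons, Function.update_idem,
        Multiset.erase_cons_head, Function.update_eq_self]
      have h1 : (a u).2.map (fun k => s V E (Function.update (Function.update a u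
          ((a u).1, 0 ::ₘ (a u).2)) u ((a u).1, (0 ::ₘ (a u).2).erase k)) (Q.ad f u k)) =
          (a u).2.map (fun k => (2 * ((a u).1 : ℚ) - 2 + Q.nv f u + (a u).2.card) *
            s V E (Function.update a u ((a u).1, (a u).2.erase k)) (Q.ad f u k)) := by
        apply Multiset.map_congr rfl
        intro k hk
        have h2 := hs.2.2 V E (Function.update a u ((a u).1, (a u).2.erase k)) (Q.ad f u k) u
        rw [nv_ad, if_pos rfl, Function.update_self, Function.update_idem] at h2
        have h3 : (0 ::ₘ (a u).2).erase k = 0 ::ₘ (a u).2.erase k := by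
          by_cases hk0 : 0 = k
          · subst hk0
            rw [Multiset.erase_cons_head, Multiset.cons_erase hk]
          · rw [Multiset.erase_cons_tail _ (by simpa using hk0)]
        rw [Function.update_idem, h3, h2]
        have h4 : ((a u).2.erase k).card + 1 = (a u).2.card := Multiset.card_erase_add_one hk
        rw [← h4]
        push_cast
        ring
      simp only at h1 ⊢
      rw [h1, Multiset.sum_map_mul_left]
      push_cast
      ring
    · rw [if_neg huv, add_zero] at h0
      rw [h0, Function.update_of_ne huv, mul_sub]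
      congr 1
      rw [← Multiset.sum_map_mul_left]
      congr 1
      apply Multiset.map_congr rfl
      intro k hk
      have h2 := hs.2.2 V E (Function.update a u ((a u).1, (a u).2.erase k)) (Q.ad f u k) v
      rw [nv_ad, if_neg huv, Function.update_of_ne (Ne.symm huv), add_zero,
        Function.update_comm huv] at h2
      exact h2
  · rw [← smul_eq_mul, smul_finsum]
    apply finsum_congr
    intro z
    rw [smul_finsum]
    apply finsum_congr
    intro _
    have h2 := hs.2.2 (Option V) (Option E) (Option.elim' (0, 0) a) (Q.bub f z) (some v)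
    rw [nv_bub, show (Option.elim' (0, 0) a (some v) : ℕ × Multiset ℕ) = a v from rfl] at h2
    rw [elim_update, smul_eq_mul]
    refine Eq.trans ?_ h2
    exact congrArg (fun z => s _ _ z _) (upd_eq _ _ _ _ _)

end Vale.Agent.P273.D14.H599
end
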