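import Vale.Agent.P273.D14.H599.Leaf
import Vale.Agent.P273.D14.H599.PullDil
import Vale.Agent.P273.D14.H387.GSP

/-!
The values of the functional `G` after adding a leaf.
-/

noncomputable section
namespace Vale.Agent.P273.D14.H599
open Sum Vale.Agent.P273 Vale.Agent.P273.D14.H387
open scoped Classical

variable {V E M N : Type}

/-- Add a leaf at `v` (undecorated). -/
def lfU (h : E × Bool → V) (v : V) : Option E × Bool → Option V :=
  fun y => y.1.elim (cond y.2 none (some v)) fun e => some (h (e, y.2))

/-- Add a self-loop at `w` (undecorated). -/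
def lpU (h : E × Bool → V) (w : V) : Option E × Bool → V :=
  fun y => y.1.elim w fun e => h (e, y.2)

/-- Split the vertex `w` by a double edge (undecorated). -/
def dbU (h : E × Bool → V) (w : V) (T : Set (E × Bool)) : (E ⊕ Bool) × Bool → Option V :=
  fun y => y.1.elim (fun e => if (e, y.2) ∈ T then none else some (h (e, y.2)))
    fun _ => cond y.2 (some w) none

/-- The sum over all positions of a leaf is zero. -/
def LI (φ : Und) : Prop := ∀ (V E : Type) [Finite V] [Finite E] (h : E × Bool → V),
  Nat.card E = Nat.card V + 1 → ∑ᶠ v, φ (Option V) (Option E) (lfU h v) = 0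

variable (ε : M ⊕ Bool ≃ N) (a : V → ℕ × Multiset ℕ) (f : (E × Bool) ⊕ M → V × ℕ) (v w : V)
  (c : ℕ)

lemma lf_inr (g : (E × Bool) ⊕ Option M → V × ℕ) (n : N) :
    lf ε g (inr n) = (ε.symm n).elim (fun m => (g (inr (some m))).map some id) fun _ => (none, 0) :=
  rfl

lemma forall_lf (P : Option V × ℕ → Prop) : (∀ y, P (lf ε (Q.ad f v c) y)) ↔
    (∀ y, P ((f y).map some id)) ∧ P (some v, c) ∧ P (none, 0) := by
  constructor
  · intro h
    refine ⟨?_, h (inl (none, false)), h (inl (none, true))⟩
    rintro (⟨e, b⟩ | m)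
    · exact h (inl (some e, b))
    · have := h (inr (ε (inl m)))
      rw [lf_inr, Equiv.symm_apply_apply] at this
      exact this
  · rintro ⟨h1, h2, h3⟩ (⟨_ | e, _ | _⟩ | n)
    · exact h2
    · exact h3
    · exact h1 (inl (e, false))
    · exact h1 (inl (e, true))
    · rw [lf_inr]
      rcases ε.symm n with m | b
      · exact h1 (inr m)
      · exact h3

lemma ty1_lf : Ty1 (Option.elim' (0, 0) a) (lf ε (Q.ad f v c)) ↔ Ty1 a f ∧ c = 0 := by
  unfold Ty1
  rw [forall_lf ε f v c (fun z => z.2 = 0)]
  constructor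
  · rintro ⟨h1, h2, h3, -⟩
    exact ⟨⟨fun u => h1 (some u), h2⟩, h3⟩
  · rintro ⟨⟨h1, h2⟩, h3⟩
    exact ⟨fun u => by cases u; exacts [rfl, h1 _], h2, h3, rfl⟩

lemma ty_lf : Ty (Option.elim' (0, 0) a) (lf ε (Q.ad f v c)) (some w) ↔
    Ty a f w ∧ (c ≠ 0 → v = w) := by
  unfold Ty
  rw [forall_lf ε f v c (fun z => z.2 ≠ 0 → z.1 = some w)]
  constructor
  · rintro ⟨h1, h2, h3, h4, -⟩
    exact ⟨⟨h1, fun u hu => h2 (some u) (by simpa using hu), fun y hy =>
      Option.some_injective _ (h3 y hy)⟩, fun hc => Option.some_injective _ (h4 hc)⟩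
  · rintro ⟨⟨h1, h2, h3⟩, h4⟩
    refine ⟨h1, fun u hu => ?_, fun y hy => congrArg some (h3 y hy),
      fun hc => congrArg some (h4 hc), fun h => absurd rfl h⟩
    cases u
    · rfl
    · exact h2 _ (by simpa using hu)

lemma not_ty_none (g : (Option E × Bool) ⊕ N → Option V × ℕ) :
    ¬ Ty (Option.elim' (0, 0) a) g none := fun h => absurd h.1 (by simp)

lemma onL_lf : OnL (lf ε (Q.ad f v c)) ↔ OnL f ∧ c = 0 := by
  constructor
  · rintro ⟨h1, h2⟩
    refine ⟨⟨fun y => h1 (some y.1, y.2), fun m => ?_⟩, h1 (none, false)⟩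
    have := h2 (ε (inl m))
    rw [lf_inr, Equiv.symm_apply_apply] at this
    exact this
  · rintro ⟨⟨h1, h2⟩, h3⟩
    constructor
    · rintro ⟨_ | e, _ | _⟩
      · exact h3
      · rfl
      · exact h1 (e, false)
      · exact h1 (e, true)
    · intro n
      rw [lf_inr]
      rcases ε.symm n with m | b
      · exact h2 m
      · exact Nat.zero_le _

lemma sum_ad [Finite E] [Finite M] : ∑ᶠ y, (Q.ad f v c y).2 = ∑ᶠ y, (f y).2 + c := by
  have := Fintype.ofFinite E
  have := Fintype.ofFinite M
  rw [finsum_eq_sum_of_fintype, finsum_eq_sum_of_fintype, Fintype.sum_sum_type,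
    Fintype.sum_sum_type, Fintype.sum_option]
  have e1 : ∀ y, (Q.ad f v c (inl y)).2 = (f (inl y)).2 := fun _ => rfl
  have e2 : ∀ m, (Q.ad f v c (inr (some m))).2 = (f (inr m)).2 := fun _ => rfl
  have e3 : (Q.ad f v c (inr none)).2 = c := rfl
  simp only [e1, e2, e3]
  omega

lemma nv_lf_ad [Finite E] [Finite M] : Q.nv (lf ε (Q.ad f v c)) (some w) =
    Q.nv f w + if v = w then 1 else 0 := by
  rw [nv_lf, nv_ad]

lemma stab_ad [Finite M] {g d : ℕ} {K : Multiset ℕ} (hK : K.sum + c = (a v).2.sum)
    (h : Q.Stab a f g d) : Q.Stab (Function.update a v ((a v).1, K)) (Q.ad f v c) g d := by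
  obtain ⟨h1, h2, h3, h4, h5, h6, h7⟩ := h
  have := Fintype.ofFinite V
  have e1 : ∀ u, (Function.update a v ((a v).1, K) u).1 = (a u).1 := by
    intro u
    by_cases h : u = v
    · subst h; simp
    · rw [Function.update_of_ne h]
  refine ⟨h1, h2, h3, h4, ?_, ?_, ?_⟩
  · simp only [e1]
    exact h5
  · intro u
    rw [e1, nv_ad]
    have := h6 u
    omega
  · rw [sum_ad]
    have e2 : ∑ᶠ u, (Function.update a v ((a v).1, K) u).2.sum + c = ∑ᶠ u, (a u).2.sum := by
      rw [finsum_eq_sum_of_fintype, finsum_eq_sum_of_fintype,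
        ← Finset.add_sum_erase _ _ (Finset.mem_univ v),
        ← Finset.add_sum_erase _ (fun u => (a u).2.sum) (Finset.mem_univ v), Function.update_self]
      have e3 : ∑ u ∈ Finset.univ.erase v, (Function.update a v ((a v).1, K) u).2.sum =
          ∑ u ∈ Finset.univ.erase v, (a u).2.sum := by
        apply Finset.sum_congr rfl
        intro u hu
        rw [Function.update_of_ne (Finset.ne_of_mem_erase hu)]
      rw [e3, ← hK]
      dsimp only
      omega
    omega

/-- On stable graphs without `κ_0` the functional is `G0`. -/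
lemma G_stab {φ : Und} {f : (E × Bool) ⊕ LL → V × ℕ} (h : Q.Stab a f 2 9)
    (h0 : ∀ v, 0 ∉ (a v).2) : H387.G φ V E a f = H387.G0 φ a f := by
  by_cases hG : H387.G0 φ a f = 0
  · by_cases hv : Q.Valid a f 2 9
    · exact G_eq hv h0
    · rw [G_invalid hv, hG]
  · apply G_eq _ h0
    refine ⟨h, ?_⟩
    have : Finite V := h.1
    have : Finite E := h.2.1
    have hst := h.2.2.2.2.2.1
    rcases G0_ne hG with ⟨h1, -⟩ | ⟨w, h1, h2⟩
    · intro v
      have e1 := hst v
      have e2 : dd a f v = 0 := dd_zero (by rw [h1.1 v]; rfl) (fun y hy => absurd (h1.2 y) hy)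
      have e3 := h1.1 v
      unfold dd at e2
      rw [e3] at e1 ⊢
      rw [e3] at e2
      dsimp only at e1 e2 ⊢
      omega
    · intro v
      have e1 := hst v
      by_cases hvw : v = w
      · subst hvw
        have e2 := dd_at (a := a) h1.2.2
        unfold dd at e2
        rw [e2, h1.1]
        rw [h1.1] at e1
        rcases h2 with ⟨h2, h3, -⟩ | ⟨h2, h3, -⟩ | ⟨h2, h3, h4, -⟩
        · rw [h2, h3]
          simp
          omega
        · rw [h2, h3]
          simp
          omega
        · rw [h2, h3]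
          have : 2 ≤ Q.nv f v := by
            rw [← h3]
            unfold Q.nv
            have := Fintype.ofFinite E
            rw [finsum_eq_sum_of_fintype, Nat.card_eq_fintype_card, Fintype.card_subtype,
              Finset.card_filter]
            apply Finset.sum_le_sum
            intro y _
            by_cases hy : (f y).2 = 0
            · rw [hy]; exact Nat.zero_le _
            · rw [if_pos (h1.2.2 y hy)]
              rcases y with y | x
              · exact absurd (h4.1 y) hy
              · exact h4.2 x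
          simp
          omega
      · have e3 := h1.2.1 v hvw
        have e2 : dd a f v = 0 := dd_zero (by rw [e3]; rfl)
          (fun y hy h => hvw (h.symm.trans (h1.2.2 y hy)))
        unfold dd at e2
        rw [e3] at e1 ⊢
        rw [e3] at e2
        dsimp only at e1 e2 ⊢
        omega

end Vale.Agent.P273.D14.H599
end
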