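import Vale.Agent.P273.D14.H599.F11C

/-!
The relations of degree one in genus 1 with one leg of each colour.
-/

noncomputable section
namespace Vale.Agent.P273.D14.H599
open Sum Vale.Agent.P273 Vale.Agent.P273.D14.H387 Vale.Agent.P273.D14.H18
open Vale.Agent.P273.C1.R3B Vale.Agent.P273.C1.R1B
open scoped Classical

variable {V E R T L : Type}

lemma unused_one {W : Env R T L LL} {z0 : L} (h0 : inl z0 ∉ Set.range W.use)
    (h : ∀ z, z ≠ z0 → inl z ∈ Set.range W.use) (Γ : Gr (Fin 1) E L) :
    W.unused Γ 0 = {(Γ.hf (inr z0)).2 + W.b z0} := by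
  unfold Env.unused
  rw [finsum_eq_single _ z0]
  · rw [finsum_eq_if, if_pos ⟨h0, Subsingleton.elim _ _⟩]
  · intro z hz
    rw [finsum_eq_if, if_neg (fun h' => h'.1 (h z hz))]

theorem f11_G {φ : Und} (hφ : φ.Inv) (hbr : φ.Br) : H462.F11 (G φ) := by
  intro R T L _ _ _ r u hr hu i x hone z0 hall
  have := Fintype.ofFinite L
  let W : Env R T L LL := ⟨r, u, fun _ => 0⟩
  have hL : 0 < Fintype.card L := Fintype.card_pos_iff.2 ⟨x true⟩
  change rl (G φ) W.dec W.use W.b _ 1 1 = 0
  rw [rl_one (tr_G hφ) W (γ := 1) (by omega) (by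
    rw [Finset.sum_ite_eq', if_pos (Finset.mem_univ _)]
    exact even_two) (by intro z; split_ifs <;> omega)]
  have hb : ∀ z, W.b z = 0 := fun _ => rfl
  -- the splittings
  have e0 : ∀ (h : ℕ) (ε : L → Bool), Mv.sg (G φ) (W.graft (pt2G 1 h ε true)) = 0 := by
    intro h ε
    by_contra hne
    have key : ∀ v : Fin 2, (W.graft (pt2G 1 h ε true)).hf (inr (i true, true)) = (inl v, 0) := by
      intro v
      obtain ⟨j, hj⟩ := sp_G' hne true (inl v)
      rcases hz : W.use (inr (j, true)) with z | p
      · have hji : j = i true := by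
          by_contra hji
          obtain ⟨p, hp⟩ := hone.rest true j hji
          change u (inr (j, true)) = inl z at hz
          rw [hz] at hp
          cases hp
        subst hji
        have h1 := hf_pt2 W (γ := 1) (h := h) (ε := ε) hz
        refine Prod.ext hj ?_
        show ((W.graft (pt2G 1 h ε true)).hf (lft (Fin 1) (inr (i true, true)))).2 = 0
        rw [h1]
      · have h1 := hf_env W (Γ := pt2G 1 h ε true) hz
        change (W.graft (pt2G 1 h ε true)).hf (inr (j, true)) = _ at h1
        rw [h1] at hj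
        cases hj
    have h1 := key 0
    rw [key 1] at h1
    have h2 := inl_injective (congrArg Prod.fst h1)
    exact absurd h2 (by decide)
  rw [Finset.sum_eq_zero (s := Finset.univ) (f := fun h : Fin (1 + 1) => ∑ ε : L → Bool, _)
    (fun h _ => Finset.sum_eq_zero fun ε _ => by rw [e0, mul_zero]), add_zero, if_neg one_ne_zero]
  by_cases hO : Out W
  swap
  · have h1 : Mv.sg (G φ) (W.graft (pt1 1 {1} (fun _ => 0))) = 0 := by
      by_contra h
      exact hO (out_pt hr h)
    have h2 : ∀ z, Mv.sg (G φ) (W.graft (pt1 1 0 (fun y => if y = z then 1 else 0))) = 0 := by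
      intro z
      by_contra h
      exact hO (out_pt hr h)
    have h3 : Mv.sg (G φ) (W.graft (lpG 1 L)) = 0 := by
      by_contra h
      exact hO (out_lp hbr hr hL h)
    rw [h1, h3, Finset.sum_eq_zero fun z _ => by rw [h2, mul_zero]]
    norm_num
  have hn := card_used (W := W) hu
  by_cases hz0 : inl z0 ∈ Set.range W.use
  · have hall' : ∀ z, inl z ∈ Set.range W.use := by
      intro z
      by_cases h : z = z0
      · rw [h]; exact hz0
      · exact hall z h
    have h1 : Mv.sg (G φ) (W.graft (pt1 1 {1} (fun _ => 0))) =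
        if Sk W then (nh (HH W) (inl 0) : ℚ) / 24 * Lam φ W else 0 := by
      show G φ _ _ _ _ = _
      rw [dec_pt hO, unused_zero hall', add_zero]
      exact val_kap hO hb
    have h2 : ∀ z, Mv.sg (G φ) (W.graft (pt1 1 0 (fun y => if y = z then 1 else 0))) =
        if Sk W then 1 / 24 * Lam φ W else 0 := by
      intro z
      obtain ⟨y0, hy0⟩ := hall' z
      show G φ _ _ _ _ = _
      rw [dec_pt hO, unused_zero hall', add_zero]
      exact val_psi hO hb hu hy0
    have h3 : Mv.sg (G φ) (W.graft (lpG 1 L)) = if Sk W then Lam φ W else 0 := by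
      show G φ _ _ _ _ = _
      rw [dec_lp hO, unused_zero hall']
      exact val_lop hφ hO hb
    have h4 : (Nat.card {z // inl z ∈ Set.range W.use}) = Fintype.card L := by
      rw [← Nat.card_eq_fintype_card]
      exact Nat.card_congr (Equiv.subtypeUnivEquiv hall')
    have h5 : (Fintype.card L : ℚ) = ∑ z : L, 1 := by simp
    simp only [h1, h2, h3, hn, h4]
    split_ifs with hS
    · rw [← Finset.sum_mul]
      have h6 : ∑ z, (if (if z = z0 then 1 else 0) = 0 then (-60 : ℚ) else 84) =
          144 - 60 * Fintype.card L := by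
        have h7 : ∀ z, (if (if z = z0 then 1 else 0) = 0 then (-60 : ℚ) else 84) =
            (if z = z0 then 144 else 0) - 60 := by
          intro z
          split_ifs <;> norm_num at *
        rw [Finset.sum_congr rfl fun z _ => h7 z, Finset.sum_sub_distrib, Finset.sum_ite_eq',
          if_pos (Finset.mem_univ _)]
        simp
        ring
      rw [h6]
      ring
    · simp
  · have hun : ∀ {E : Type} (Γ : Gr (Fin 1) E L), W.unused Γ 0 = {(Γ.hf (inr z0)).2} :=
      fun Γ => unused_one hz0 hall Γ
    have h1 : Mv.sg (G φ) (W.graft (pt1 1 {1} (fun _ => 0))) =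
        ((nh (HH W) (inl 0) : ℚ) + 1) *
        if Sk W then (nh (HH W) (inl 0) : ℚ) / 24 * Lam φ W else 0 := by
      show G φ _ _ _ _ = _
      rw [dec_pt hO, hun]
      have h : ({1} + {((pt1 1 {1} fun _ : L => 0).hf (inr z0)).2} : Multiset ℕ) =
          0 ::ₘ {1} := by
        rw [add_comm]
        rfl
      rw [h, av_dil hφ, fst_pt]
      change _ * G φ _ _ (av (inl 0) 1 {1}) (f0 W) = _
      rw [val_kap hO hb]
      congr 1
      simp
    have h2 : ∀ z, z ≠ z0 → Mv.sg (G φ) (W.graft (pt1 1 0 (fun y => if y = z then 1 else 0))) =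
        (nh (HH W) (inl 0) : ℚ) * if Sk W then 1 / 24 * Lam φ W else 0 := by
      intro z hz
      obtain ⟨y0, hy0⟩ := hall z hz
      show G φ _ _ _ _ = _
      rw [dec_pt hO, hun]
      have h : (0 + {((pt1 1 0 fun y : L => if y = z then 1 else 0).hf (inr z0)).2} : Multiset ℕ) =
          0 ::ₘ 0 := by
        rw [zero_add]
        show {if z0 = z then 1 else 0} = _
        rw [if_neg (Ne.symm hz)]
        rfl
      rw [h, av_dil hφ, fst_pt, val_psi hO hb hu hy0]
      congr 1
      simp
    have h2' : Mv.sg (G φ) (W.graft (pt1 1 0 (fun y => if y = z0 then 1 else 0))) =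
        if Sk W then (nh (HH W) (inl 0) : ℚ) / 24 * Lam φ W else 0 := by
      show G φ _ _ _ _ = _
      rw [dec_pt hO, hun]
      have h : (0 + {((pt1 1 0 fun y : L => if y = z0 then 1 else 0).hf (inr z0)).2} :
          Multiset ℕ) = {1} := by
        rw [zero_add]
        show {if z0 = z0 then 1 else 0} = _
        rw [if_pos rfl]
      rw [h]
      have h' : (W.graft (pt1 1 0 fun y : L => if y = z0 then 1 else 0)).hf = f0 W := by
        funext y
        obtain ⟨y, rfl⟩ := cases_pt y
        rcases hy : W.use y with z | p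
        · rw [f0, hf_pt W hy, hf_pt W hy]
          rw [if_neg]
          rintro rfl
          exact hz0 ⟨y, hy⟩
        · rw [f0, hf_env W hy, hf_env W hy]
      rw [h']
      exact val_kap hO hb
    have h3 : Mv.sg (G φ) (W.graft (lpG 1 L)) =
        (nh (HH W) (inl 0) : ℚ) * if Sk W then Lam φ W else 0 := by
      show G φ _ _ _ _ = _
      rw [dec_lp hO, hun]
      have h : ({((lpG 1 L).hf (inr z0)).2} : Multiset ℕ) = 0 ::ₘ 0 := rfl
      rw [h, av_dil hφ, val_lop hφ hO hb]
      congr 1
      have h4 : nh (fun y => ((W.graft (lpG 1 L)).hf y).1) (inl 0) = nh (HH W) (inl 0) + 2 := by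
        have h5 := nh_lp (HH W) (inl 0) (inl 0)
        rw [if_pos rfl] at h5
        rw [← h5]
        unfold nh
        refine Nat.card_congr (Equiv.subtypeEquiv (Equiv.ofBijective (Sum.map (qq (T := T)) id)
          ⟨qq_bij.1.sumMap Function.injective_id, qq_bij.2.sumMap Function.surjective_id⟩) ?_)
        intro y
        show _ ↔ H387.lp (HH W) (inl 0) (y.map qq id) = inl 0
        rcases graft_cases y with ⟨e, b, rfl⟩ | ⟨y, rfl⟩
        · rw [Subsingleton.elim e 0]
          exact Iff.rfl
        · have h1 : H387.lp (HH W) (inl 0) ((lft (Fin 1) y).map qq id) = HH W (lft (Fin 0) y) := by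
            rcases y with ⟨t, b⟩ | x <;> rfl
          rw [h1]
          show ((W.graft (lpG 1 L)).hf (lft (Fin 1) y)).1 = _ ↔ (f0 W (lft (Fin 0) y)).1 = _
          rcases hy : W.use y with z | p
          · rw [graft_hf_lft, Env.usehf_inl hy, f0, hf_pt W hy]
            exact Iff.rfl
          · rw [f0, hf_env W hy, hf_env W hy]
      rw [h4]
      push_cast
      simp
    have h4 : (Nat.card {z // inl z ∈ Set.range W.use}) + 1 = Fintype.card L := by
      have h5 : ∀ z, inl z ∈ Set.range W.use ↔ z ≠ z0 := by
        intro z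
        constructor
        · rintro h rfl
          exact hz0 h
        · exact hall z
      rw [Nat.card_congr (Equiv.subtypeEquivRight h5), Nat.card_eq_fintype_card,
        Fintype.card_subtype_compl, Fintype.card_subtype_eq]
      omega
    rw [h1, h3, ← Finset.add_sum_erase _ _ (Finset.mem_univ z0), h2',
      Finset.sum_congr rfl (fun z hz => by rw [h2 z (Finset.ne_of_mem_erase hz),
        if_neg (Finset.ne_of_mem_erase hz), if_pos rfl]), Finset.sum_const,
      Finset.card_erase_of_mem (Finset.mem_univ _), Finset.card_univ, ← h4, Nat.add_sub_cancel, hn]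
    simp only [if_true, one_ne_zero, if_false, nsmul_eq_mul]
    split_ifs <;> ring

end Vale.Agent.P273.D14.H599
end
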