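import Vale.Agent.P273.D14.H599.Bij
import Vale.Agent.P273.D14.H837.String

/-! The string equation for the pairing of undecorated graphs of genus zero vertices. -/

noncomputable section

namespace Vale.Agent.P273.Num

open Sum Vale.Agent.P273.Q
open scoped Classical Nat

variable {V E V' E' L : Type}

/-- The string equation. -/
theorem string [Finite V] [Finite E] [Finite V'] [Finite E'] [Finite L]
    (f : (E × Bool) ⊕ L → V × ℕ) (f' : (E' × Bool) ⊕ L → V' × ℕ) (x : L)
    (hf : ∀ y, (f y).2 = 0) (hf' : ∀ y, (f' y).2 = 0)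
    (h1 : 4 ≤ nv f (f (inr x)).1)
    (h2 : ∀ v, 4 ≤ nv (Function.update f' (inr x) (v, 0)) v)
    (hb : Nat.card V' ≤ Nat.card E') :
    ∑ᶠ v, pair und f und (Function.update f' (inr x) (v, 0)) = 0 :=
  string_of hf hf' hb fun _ => Cf.main_bij h1 h2

end Vale.Agent.P273.Num
end
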