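import Vale.Agent.P273.D14.H599.InsWt

/-! The insertion of a new vertex is a bijection. -/

noncomputable section

namespace Vale.Agent.P273.Num

open Sum Vale.Agent.P273.Q
open scoped Classical Nat

variable {V E V' E' L W : Type}

namespace Cf

variable {f : (E × Bool) ⊕ L → V × ℕ} {f' : (E' × Bool) ⊕ L → V' × ℕ} {x : L}

theorem ins_inj [Finite E] [Finite E'] [Finite W] (A A₁ : Cf W f f' x) (e0 e1 : E)
    (p p1 : E' × Bool) (hM : A.M e0 = some p) (hM1 : A₁.M e1 = some p1)
    (hx : A.h (inl (e0, A.m e0)) = A.h (inr x)) (hx1 : A₁.h (inl (e1, A₁.m e1)) = A₁.h (inr x))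
    (h : A.ins e0 p hM hx = A₁.ins e1 p1 hM1 hx1) : A = A₁ ∧ e0 = e1 := by
  have hh : A.insH e0 = A₁.insH e1 := congrArg Cf.h h
  have hh' : A.insH' e0 p = A₁.insH' e1 p1 := congrArg Cf.h' h
  have h1 : A₁.insH e1 (inl (e0, A.m e0)) = none := by
    rw [← hh]
    exact (A.insH_none e0).2 (Or.inl rfl)
  rw [insH_none] at h1
  simp only [inl.injEq, Prod.mk.injEq, reduceCtorEq, or_false] at h1
  obtain ⟨rfl, hs⟩ := h1
  refine ⟨?_, rfl⟩
  have h2 : A₁.insH' e0 p1 (p.1, xor p.2 (!A.m e0)) = none := by
    rw [← hh']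
    exact (A.insH'_none e0 p).2 rfl
  rw [insH'_none, hs] at h2
  have hp : p = p1 := by
    have h3 := congrArg Prod.fst h2
    have h4 := congrArg Prod.snd h2
    simp only [Bool.xor_left_inj] at h3 h4
    exact Prod.ext h3 h4
  subst hp
  have hw : ∀ (A : Cf W f f' x) (hM : A.M e0 = some p)
      (hx : A.h (inl (e0, A.m e0)) = A.h (inr x)),
      A.insH' e0 p (p.1, xor p.2 (A.m e0)) = some (A.h (inr x)) := by
    intro A hM hx
    rw [insH'_some]
    constructor
    · intro h
      have := congrArg Prod.snd h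
      simp at this
    · rw [← hx, A.h_M e0 p.1 p.2 hM]
  have hw0 : A.h (inr x) = A₁.h (inr x) := by
    have h3 := hw A hM hx
    rw [hh', hs, hw A₁ hM1 hx1] at h3
    exact (Option.some.inj h3).symm
  have eh : A.h = A₁.h := by
    funext y
    by_cases hy : y = inl (e0, A.m e0) ∨ y = inr x
    · rcases hy with rfl | rfl
      · rw [hx, hs, hx1, hw0]
      · exact hw0
    · have h3 := (A.insH_some e0 (A.h y)).2 ⟨hy, rfl⟩
      rw [hh, insH_some] at h3
      exact h3.2.symm
  apply Cf.ext
  · exact eh
  · funext y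
    by_cases hy : y = (p.1, xor p.2 (!A.m e0))
    · subst hy
      rw [← A.h_M e0 p.1 p.2 hM, ← A₁.h_M e0 p.1 p.2 hM1, eh]
    · have h3 := (A.insH'_some e0 p (A.h' y)).2 ⟨hy, rfl⟩
      rw [hh', insH'_some] at h3
      exact h3.2.symm
  · funext e
    by_cases he : e = e0
    · rw [he, hM, hM1]
    · have h3 : (A.ins e0 p hM hx).M e = (A₁.ins e0 p hM1 hx1).M e := by rw [h]
      rw [ins_M, ins_M, if_neg he, if_neg he] at h3
      exact h3
  · funext e
    by_cases he : e = e0
    · rw [he, hs]
    · have h3 : (A.ins e0 p hM hx).m e = (A₁.ins e0 p hM1 hx1).m e := by rw [h]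
      rw [ins_m, ins_m, if_neg he, if_neg he] at h3
      exact h3
  · funext w
    have h3 : (A.ins e0 p hM hx).c (some w) = (A₁.ins e0 p hM1 hx1).c (some w) := by rw [h]
    exact h3
  · funext w
    have h3 : (A.ins e0 p hM hx).c' (some w) = (A₁.ins e0 p hM1 hx1).c' (some w) := by rw [h]
    exact h3

section

variable (B : Cf (Option W) f f' x)

theorem s_eq [Finite E] (hr : B.r none = 0) :
    Nat.card {y : E × Bool // B.h (inl y) = none} + Nat.card {z : L // B.h (inr z) = none} +
    Nat.card {y : E' × Bool // B.h' y = none ∧ ∀ e b, B.M e ≠ some (y.1, b)} = B.s none := by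
  unfold s
  congr 2
  apply Nat.card_congr
  apply Equiv.subtypeEquivRight
  intro y
  constructor
  · intro h
    refine ⟨h, ?_⟩
    rintro ⟨h1, h2⟩
    unfold r at hr
    rw [Nat.card_eq_zero] at hr
    rcases hr with hr | hr
    · exact hr.false ⟨y.1, h1, by rw [h2]; exact h⟩
    · exact hr.not_finite inferInstance
  · exact fun h => h.1

theorem ex1 [Finite E] [Finite E'] [Finite L]
    (h2 : ∀ v, 4 ≤ nv (Function.update f' (inr x) (v, 0)) v)
    (hx : B.h (inr x) = none) (hr : B.r none = 0) (hs : B.s none = 3) :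
    ∃ y : E × Bool, B.h (inl y) = none ∧ B.M y.1 = none := by
  by_contra hno
  push Not at hno
  have hc : ∀ w, B.c' none = B.c' w → w = none := by
    intro w hw
    refine B.tree'.conn {none} (fun e he => ?_) none w hw rfl
    simp only [Set.mem_singleton_iff]
    constructor
    · intro h
      exact absurd he (hno (e, true) h)
    · intro h
      exact absurd he (hno (e, false) h)
  have h3 := B.s_eq hr
  rw [hs] at h3
  have h4 := h2 (B.c' none)
  unfold nv at h4
  change 4 ≤ Set.ncard {y | (Function.update f' (inr x) (B.c' none, 0) y).1 = B.c' none} at h4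
  change Set.ncard {y : E × Bool | B.h (inl y) = none} + Set.ncard {z : L | B.h (inr z) = none} +
    Set.ncard {y : E' × Bool | B.h' y = none ∧ ∀ e b, B.M e ≠ some (y.1, b)} = 3 at h3
  have s1 : {y | (Function.update f' (inr x) (B.c' none, 0) y).1 = B.c' none} ⊆
      inl '' {y : E' × Bool | B.h' y = none ∧ ∃ e b, B.M e = some (y.1, b)} ∪
      inr '' {z : L | B.h (inr z) = none} ∪
      inl '' {y : E' × Bool | B.h' y = none ∧ ∀ e b, B.M e ≠ some (y.1, b)} := by
    rintro (y | z) hy
    · have h5 : B.h' y = none := by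
        simp only [Set.mem_ofPred_eq, ne_eq, reduceCtorEq, not_false_eq_true,
          Function.update_of_ne] at hy
        exact hc _ (by rw [B.c'_h', hy])
      by_cases hP : ∃ e b, B.M e = some (y.1, b)
      · exact Or.inl (Or.inl ⟨y, ⟨h5, hP⟩, rfl⟩)
      · push Not at hP
        exact Or.inr ⟨y, ⟨h5, hP⟩, rfl⟩
    · left; right
      refine ⟨z, ?_, rfl⟩
      by_cases hz : z = x
      · rw [hz]
        exact hx
      · simp only [Set.mem_ofPred_eq, ne_eq, inr.injEq, hz, not_false_eq_true,
          Function.update_of_ne] at hy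
        exact hc _ (by rw [B.c'_h z hz, hy])
  have s2 : Set.ncard {y : E' × Bool | B.h' y = none ∧ ∃ e b, B.M e = some (y.1, b)} ≤
      Set.ncard {y : E × Bool | B.h (inl y) = none} := by
    have e1 : some '' {y : E' × Bool | B.h' y = none ∧ ∃ e b, B.M e = some (y.1, b)} ⊆
        (fun y : E × Bool => (B.M y.1).map fun p => (p.1, xor p.2 y.2)) ''
          {y : E × Bool | B.h (inl y) = none} := by
      rintro _ ⟨⟨e', t⟩, ⟨h5, e, b, hb⟩, rfl⟩
      have h6 : xor b (xor b t) = t := by cases b <;> cases t <;> rfl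
      refine ⟨(e, xor b t), ?_, ?_⟩
      · simp only [Set.mem_ofPred_eq]
        rw [B.h_M e e' b hb, h6, h5]
      · simp only at hb
        simp only [hb, Option.map_some, h6]
    rw [← Set.ncard_image_of_injective _ (Option.some_injective _)]
    exact (Set.ncard_le_ncard e1 (Set.toFinite _)).trans (Set.ncard_image_le (Set.toFinite _))
  have h5 := (Set.ncard_le_ncard s1 (Set.toFinite _)).trans (Set.ncard_union_le _ _)
  have h6 := Set.ncard_union_le
    (inl '' {y : E' × Bool | B.h' y = none ∧ ∃ e b, B.M e = some (y.1, b)})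
    (inr '' {z : L | B.h (inr z) = none})
  rw [Set.ncard_image_of_injective _ inl_injective,
    Set.ncard_image_of_injective _ inr_injective] at h6
  rw [Set.ncard_image_of_injective _ inl_injective] at h5
  omega

theorem ex2 [Finite E] [Finite E'] [Finite L] (h1 : 4 ≤ nv f (f (inr x)).1)
    (hx : B.h (inr x) = none) (hr : B.r none = 0) (hs : B.s none = 3) :
    ∃ y : E' × Bool, B.h' y = none ∧ ∀ e b, B.M e ≠ some (y.1, b) := by
  by_contra hno
  push Not at hno
  have hc : ∀ w, B.c none = B.c w → w = none := by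
    intro w hw
    refine B.tree.conn {none} (fun e he => ?_) none w hw rfl
    simp only [Set.mem_singleton_iff]
    constructor
    · intro h
      obtain ⟨e1, b, hb⟩ := hno (e, true) h
      exact absurd hb (he e1 b)
    · intro h
      obtain ⟨e1, b, hb⟩ := hno (e, false) h
      exact absurd hb (he e1 b)
  have h3 := B.s_eq hr
  rw [hs] at h3
  unfold nv at h1
  rw [← B.c_h, hx] at h1
  change 4 ≤ Set.ncard {y | (f y).1 = B.c none} at h1
  change Set.ncard {y : E × Bool | B.h (inl y) = none} + Set.ncard {z : L | B.h (inr z) = none} +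
    _ = 3 at h3
  have s1 : {y | (f y).1 = B.c none} ⊆ inl '' {y : E × Bool | B.h (inl y) = none} ∪
      inr '' {z : L | B.h (inr z) = none} := by
    intro y hy
    have h5 : B.h y = none := hc _ (by rw [B.c_h]; exact hy.symm)
    rcases y with y | z
    · exact Or.inl ⟨y, h5, rfl⟩
    · exact Or.inr ⟨z, h5, rfl⟩
  have h5 := (Set.ncard_le_ncard s1 (Set.toFinite _)).trans (Set.ncard_union_le _ _)
  rw [Set.ncard_image_of_injective _ inl_injective,
    Set.ncard_image_of_injective _ inr_injective] at h5
  omega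

theorem ins_surj [Finite E] [Finite E'] [Finite L] [Finite W] (h1 : 4 ≤ nv f (f (inr x)).1)
    (h2 : ∀ v, 4 ≤ nv (Function.update f' (inr x) (v, 0)) v)
    (hx : B.h (inr x) = none) (hr : B.r none = 0) (hs : B.s none = 3) :
    ∃ (A : Cf W f f' x) (e0 : E) (p : E' × Bool) (hM : A.M e0 = some p)
      (hx : A.h (inl (e0, A.m e0)) = A.h (inr x)), A.ins e0 p hM hx = B := by
  obtain ⟨y0, hy0, hM0⟩ := B.ex1 h2 hx hr hs
  obtain ⟨y1, hy1, hP1⟩ := B.ex2 h1 hx hr hs
  have h3 := B.s_eq hr
  rw [hs] at h3
  have c1 : 0 < Nat.card {y : E × Bool // B.h (inl y) = none} :=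
    Nat.card_pos_iff.2 ⟨⟨⟨y0, hy0⟩⟩, inferInstance⟩
  have c2 : 0 < Nat.card {z : L // B.h (inr z) = none} :=
    Nat.card_pos_iff.2 ⟨⟨⟨x, hx⟩⟩, inferInstance⟩
  have c3 : 0 < Nat.card {y : E' × Bool // B.h' y = none ∧ ∀ e b, B.M e ≠ some (y.1, b)} :=
    Nat.card_pos_iff.2 ⟨⟨⟨y1, hy1, hP1⟩⟩, inferInstance⟩
  have u1 : ∀ y : E × Bool, B.h (inl y) = none → y = y0 := by
    intro y hy
    have := (Nat.card_eq_one_iff_unique.1 (show Nat.card {y : E × Bool // B.h (inl y) = none} = 1
      by omega)).1
    exact congrArg Subtype.val (Subsingleton.elim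
      (⟨y, hy⟩ : {y : E × Bool // B.h (inl y) = none}) ⟨y0, hy0⟩)
  have u2 : ∀ z : L, B.h (inr z) = none → z = x := by
    intro y hy
    have := (Nat.card_eq_one_iff_unique.1 (show Nat.card {z : L // B.h (inr z) = none} = 1
      by omega)).1
    exact congrArg Subtype.val (Subsingleton.elim
      (⟨y, hy⟩ : {z : L // B.h (inr z) = none}) ⟨x, hx⟩)
  have u3 : ∀ y : E' × Bool, B.h' y = none → y = y1 := by
    rintro ⟨e', t⟩ hy
    by_cases hP : ∀ e b, B.M e ≠ some (e', b)
    · have := (Nat.card_eq_one_iff_unique.1 (show Nat.card {y : E' × Bool // B.h' y = none ∧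
        ∀ e b, B.M e ≠ some (y.1, b)} = 1 by omega)).1
      exact congrArg Subtype.val (Subsingleton.elim
        (⟨(e', t), hy, hP⟩ : {y : E' × Bool // B.h' y = none ∧ ∀ e b, B.M e ≠ some (y.1, b)})
        ⟨y1, hy1, hP1⟩)
    · push Not at hP
      obtain ⟨e, b, hb⟩ := hP
      have h6 : xor b (xor b t) = t := by cases b <;> cases t <;> rfl
      have h7 := u1 (e, xor b t) (by rw [B.h_M e e' b hb, h6, hy])
      rw [← h7] at hM0
      rw [hb] at hM0
      exact absurd hM0 (by simp)
  obtain ⟨e0, s⟩ := y0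
  obtain ⟨e', t⟩ := y1
  simp only at hM0 hP1
  obtain ⟨w0, hw0⟩ : ∃ w0, B.h' (e', !t) = some w0 := by
    rw [← Option.ne_none_iff_exists']
    intro h
    have := congrArg Prod.snd (u3 _ h)
    simp at this
  obtain ⟨w1, hw1⟩ : ∃ w1, B.h (inl (e0, !s)) = some w1 := by
    rw [← Option.ne_none_iff_exists']
    intro h
    have := congrArg Prod.snd (u1 _ h)
    simp at this
  obtain ⟨hA, hA0, hAx, hA1⟩ : ∃ hA : (E × Bool) ⊕ L → W, hA (inl (e0, s)) = w0 ∧ hA (inr x) = w0 ∧
      ∀ y, y ≠ inl (e0, s) → y ≠ inr x → B.h y = some (hA y) := by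
    refine ⟨fun y => if y = inl (e0, s) then w0 else if y = inr x then w0 else (B.h y).getD w0,
      by simp, by simp, ?_⟩
    intro y hy1 hy2
    simp only [if_neg hy1, if_neg hy2]
    obtain ⟨w, hw⟩ : ∃ w, B.h y = some w := by
      rw [← Option.ne_none_iff_exists']
      intro h
      rcases y with y | z
      · exact hy1 (by rw [u1 y h])
      · exact hy2 (by rw [u2 z h])
    simp [hw]
  obtain ⟨hA', hA'0, hA'1⟩ : ∃ hA' : E' × Bool → W, hA' (e', t) = w1 ∧
      ∀ y, y ≠ (e', t) → B.h' y = some (hA' y) := by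
    refine ⟨fun y => if y = (e', t) then w1 else (B.h' y).getD w0, by simp, ?_⟩
    intro y hy1
    simp only [if_neg hy1]
    obtain ⟨w, hw⟩ : ∃ w, B.h' y = some w := by
      rw [← Option.ne_none_iff_exists']
      intro h
      exact hy1 (u3 y h)
    simp [hw]
  have hc0 : B.c none = B.c (some w0) := by
    have := B.tree.edge e' hP1
    rw [← hw0, ← hy1]
    cases t
    · exact this.symm
    · exact this
  have hc'0 : B.c' none = B.c' (some w1) := by
    have := B.tree'.edge e0 hM0
    rw [← hw1, ← hy0]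
    cases s
    · exact this.symm
    · exact this
  have hne : ∀ (e : E) (s' : Bool), e ≠ e0 → B.h (inl (e, s')) = some (hA (inl (e, s'))) := by
    intro e s' he
    apply hA1
    · intro h
      simp only [inl.injEq, Prod.mk.injEq] at h
      exact he h.1
    · simp
  have hne' : ∀ (e : E') (s' : Bool), e ≠ e' → B.h' (e, s') = some (hA' (e, s')) := by
    intro e s' he
    apply hA'1
    intro h
    exact he (congrArg Prod.fst h)
  have hAns : hA (inl (e0, !s)) = w1 := by
    have := hA1 (inl (e0, !s)) (by simp) (by simp)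
    rw [hw1] at this
    exact (Option.some.inj this).symm
  have hAnt : hA' (e', !t) = w0 := by
    have := hA'1 (e', !t) (by
      intro h
      have := congrArg Prod.snd h
      simp at this)
    rw [hw0] at this
    exact (Option.some.inj this).symm
  have hMA : ∀ e'', (∀ e b, B.M e ≠ some (e'', b)) ↔ (∀ e b, (if e = e0 then
      some (e', xor t (!s)) else B.M e) ≠ some (e'', b)) ∨ e'' = e' := by
    intro e''
    constructor
    · intro h
      by_cases he : e'' = e'
      · exact Or.inr he
      · left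
        intro e b
        split_ifs
        · simp [Ne.symm he]
        · exact h e b
    · rintro (h | rfl) e b
      · by_cases he : e = e0
        · rw [he, hM0]
          simp
        · have := h e b
          rwa [if_neg he] at this
      · exact hP1 e b
  refine ⟨{ h := hA, h' := hA', M := fun e => if e = e0 then some (e', xor t (!s)) else B.M e,
            m := fun e => if e = e0 then s else B.m e, c := fun w => B.c (some w),
            c' := fun w => B.c' (some w), m_none := ?_, M_inj := ?_, h_M := ?_, c_h := ?_,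
            c'_h := ?_, c'_h' := ?_, tree := ?_, tree' := ?_ },
    e0, (e', xor t (!s)), by simp, by simp [hA0, hAx], ?_⟩
  · intro e he
    split_ifs at he with h
    rw [if_neg h]
    exact B.m_none e he
  · intro e₁ e₂ e'' b₁ b₂ h₁ h₂
    split_ifs at h₁ h₂ with h3 h4 h4
    · rw [h3, h4]
    · have h5 : e' = e'' := congrArg Prod.fst (Option.some.inj h₁)
      rw [← h5] at h₂
      exact absurd h₂ (hP1 _ _)
    · have h5 : e' = e'' := congrArg Prod.fst (Option.some.inj h₂)
      rw [← h5] at h₁
      exact absurd h₁ (hP1 _ _)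
    · exact B.M_inj e₁ e₂ e'' b₁ b₂ h₁ h₂
  · intro e e'' b he s'
    split_ifs at he with h
    · subst h
      have h4 := Option.some.inj he
      have h5 : e' = e'' := congrArg Prod.fst h4
      have h6 : xor t (!s) = b := congrArg Prod.snd h4
      subst h5 h6
      by_cases hs' : s' = s
      · subst hs'
        rw [hA0, show xor (xor t (!s')) s' = !t by cases t <;> cases s' <;> rfl, hAnt]
      · rw [(bne_iff s' s).1 hs', hAns,
          show xor (xor t (!s)) (!s) = t by cases t <;> cases s <;> rfl, hA'0]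
    · have h4 := B.h_M e e'' b he s'
      rw [hne e s' h, hne' e'' _ (by
        rintro rfl
        exact hP1 e b he)] at h4
      exact Option.some.inj h4
  · intro y
    by_cases hy : y = inl (e0, s)
    · subst hy
      rw [hA0, ← hc0, ← hy0, B.c_h]
    · by_cases hy2 : y = inr x
      · subst hy2
        rw [hAx, ← hc0, ← hx, B.c_h]
      · rw [← hA1 y hy hy2, B.c_h]
  · intro z hz
    rw [← hA1 (inr z) (by simp) (by simpa using hz), B.c'_h z hz]
  · intro y
    by_cases hy : y = (e', t)
    · subst hy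
      rw [hA'0, ← hc'0, ← hy1, B.c'_h']
    · rw [← hA'1 y hy, B.c'_h']
  · refine (Trees.pendant (c' := B.c) (h' := B.h')
      e' t hMA (fun h => ?_)
      (fun e'' he'' s' => ?_) hy1 w0 hw0 (fun _ => rfl) hc0).1 B.tree
    · have := h e0 (xor t (!s))
      rw [if_pos rfl] at this
      exact this rfl
    · apply hne'
      rintro rfl
      have := he'' e0 (xor t (!s))
      rw [if_pos rfl] at this
      exact this rfl
  · refine (Trees.pendant (c' := B.c') (h' := fun y => B.h (inl y)) (P' := fun e => B.M e = none)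
      e0 s (fun e => ?_) (by simp)
      (fun e he s' => ?_) hy0 w1 hw1 (fun _ => rfl) hc'0).1 B.tree'
    · by_cases he : e = e0
      · simp [he, hM0]
      · simp [he]
    · apply hne
      rintro rfl
      simp at he
  · apply Cf.ext
    · funext y
      simp only [ins, insH, if_true]
      by_cases hy : y = inl (e0, s)
      · simp [hy, hy0]
      · by_cases hy2 : y = inr x
        · simp [hy2, hx]
        · rw [if_neg (by simp [hy, hy2]), hA1 y hy hy2]
    · funext y
      simp only [ins, insH', if_true]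
      rw [show xor (xor t (!s)) (!s) = t by cases t <;> cases s <;> rfl]
      by_cases hy : y = (e', t)
      · simp [hy, hy1]
      · rw [if_neg hy, hA'1 y hy]
    · funext e
      simp only [ins]
      by_cases he : e = e0
      · simp [he, hM0]
      · simp [he]
    · funext e
      simp only [ins]
      by_cases he : e = e0
      · simp [he, B.m_none e0 hM0]
      · simp [he]
    · funext w
      simp only [ins]
      cases w with
      | none => simp only [Option.elim_none, hAx]; exact hc0.symm
      | some w => rfl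
    · funext w
      simp only [ins, if_true]
      cases w with
      | none => simp only [Option.elim_none, hAns]; exact hc'0.symm
      | some w => rfl

end

/-- The sum over the configurations with the leg `x` at the new vertex `none` without marked
half-edges. -/
theorem main_bij [Finite V] [Finite E] [Finite V'] [Finite E'] [Finite L] [Fintype W]
    (h1 : 4 ≤ nv f (f (inr x)).1)
    (h2 : ∀ v, 4 ≤ nv (Function.update f' (inr x) (v, 0)) v) :
    ∑ᶠ (S : Cf (Option W) f f' x) (_ : S.h (inr x) = none ∧ S.r none = 0), S.wt =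
      - ∑ᶠ (S : Cf W f f' x) (_ : ¬ S.r (S.h (inr x)) = 0), S.wt := by
  have := Fintype.ofFinite E
  have := Fintype.ofFinite (Cf (Option W) f f' x)
  have := Fintype.ofFinite (Cf W f f' x)
  have e1 : ∀ S : Cf W f f' x, ∑ᶠ (_ : ¬ S.r (S.h (inr x)) = 0), S.wt =
      - ∑ e : {e // S.M e ≠ none ∧ S.h (inl (e, S.m e)) = S.h (inr x)},
        (S.ins e.1 ((S.M e.1).get (Option.ne_none_iff_isSome.1 e.2.1)) (Option.some_get _).symm
          e.2.2).wt := by
    intro S
    have e2 : ∀ e : {e // S.M e ≠ none ∧ S.h (inl (e, S.m e)) = S.h (inr x)},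
        S.r (S.h (inr x)) * (S.ins e.1 ((S.M e.1).get (Option.ne_none_iff_isSome.1 e.2.1))
          (Option.some_get _).symm e.2.2).wt = - S.wt := by
      intro e
      rw [S.ins_wt e.1 _ (Option.some_get (Option.ne_none_iff_isSome.1 e.2.1)).symm e.2.2]
      ring
    have e3 : Nat.card {e // S.M e ≠ none ∧ S.h (inl (e, S.m e)) = S.h (inr x)} =
      S.r (S.h (inr x)) := rfl
    by_cases hr : S.r (S.h (inr x)) = 0
    · simp only [hr, not_true_eq_false, finsum_false]
      rw [hr, Nat.card_eq_fintype_card, Fintype.card_eq_zero_iff] at e3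
      simp
    · simp only [hr, not_false_eq_true, finsum_true]
      have hr' : (S.r (S.h (inr x)) : ℚ) ≠ 0 := by exact_mod_cast hr
      apply mul_left_cancel₀ hr'
      rw [mul_neg, Finset.mul_sum, Finset.sum_congr rfl fun e _ => e2 e]
      rw [Nat.card_eq_fintype_card] at e3
      rw [Finset.sum_const, Finset.card_univ, e3]
      simp
  rw [finsum_eq_sum_of_fintype, finsum_eq_sum_of_fintype, Finset.sum_congr rfl fun S _ => e1 S,
    Finset.sum_neg_distrib, neg_neg, ← Fintype.sum_sigma']
  symm
  apply Finset.sum_of_injOn (fun t : (Σ S : Cf W f f' x, {e // S.M e ≠ none ∧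
    S.h (inl (e, S.m e)) = S.h (inr x)}) => t.1.ins t.2.1 ((t.1.M t.2.1).get
      (Option.ne_none_iff_isSome.1 t.2.2.1)) (Option.some_get _).symm t.2.2.2)
  · rintro ⟨S, e⟩ _ ⟨S', e'⟩ _ hSS
    obtain ⟨rfl, h4⟩ := ins_inj _ _ _ _ _ _ _ _ _ _ hSS
    have : e = e' := Subtype.ext h4
    rw [this]
  · exact fun _ _ => Finset.mem_coe.2 (Finset.mem_univ _)
  · intro B _ hB
    by_cases hc : B.h (inr x) = none ∧ B.r none = 0
    · rw [finsum_eq_if, if_pos hc]
      by_cases hs : B.s none = 3
      · exfalso
        apply hB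
        obtain ⟨A, e0, p, hM, hx, rfl⟩ := B.ins_surj h1 h2 hc.1 hc.2 hs
        refine ⟨⟨A, e0, by rw [hM]; simp, hx⟩, Finset.mem_coe.2 (Finset.mem_univ _), ?_⟩
        simp only
        congr 1
        simp only [hM, Option.get_some]
      · unfold wt
        rw [Fintype.prod_option]
        simp [phi, hs]
    · rw [finsum_eq_if, if_neg hc]
  · rintro ⟨S, e⟩ _
    rw [finsum_eq_if, if_pos]
    refine ⟨?_, S.ins_r_none _ _ _ _⟩
    rw [ins_h, insH_none]
    exact Or.inr rfl

end Cf

end Vale.Agent.P273.Num
end
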