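import Vale.Agent.P273.D14.H599.Tree

/-! Common degenerations with marked sides of the common edges. -/

noncomputable section

namespace Vale.Agent.P273.Num

open Sum Vale.Agent.P273.Q
open scoped Classical Nat

variable {V E V' E' L W W₁ : Type}

/-- A common degeneration with vertices `W` of two undecorated graphs with vertices of genus `0`,
where the leg `x` of the second graph may be at any vertex, together with a marked side of each
common edge. -/
@[ext] structure Cf (W : Type) (f : (E × Bool) ⊕ L → V × ℕ) (f' : (E' × Bool) ⊕ L → V' × ℕ)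
    (x : L) where
  h : (E × Bool) ⊕ L → W
  h' : E' × Bool → W
  M : E → Option (E' × Bool)
  /-- The marked side. -/
  m : E → Bool
  c : W → V
  c' : W → V'
  m_none : ∀ e, M e = none → m e = false
  M_inj : ∀ e₁ e₂ e' b₁ b₂, M e₁ = some (e', b₁) → M e₂ = some (e', b₂) → e₁ = e₂
  h_M : ∀ e e' b, M e = some (e', b) → ∀ s, h (inl (e, s)) = h' (e', xor b s)
  c_h : ∀ y, c (h y) = (f y).1
  c'_h : ∀ z, z ≠ x → c' (h (inr z)) = (f' (inr z)).1
  c'_h' : ∀ y, c' (h' y) = (f' (inl y)).1
  tree : Trees (fun e' => ∀ e b, M e ≠ some (e', b)) h' c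
  tree' : Trees (fun e => M e = none) (fun y => h (inl y)) c'

/-- The weight of a vertex with `s` unmarked and `r` marked half-edges. -/
def phi (s r : ℕ) : ℚ := if s = 3 then (r ! : ℚ) else 0

namespace Cf

variable {f : (E × Bool) ⊕ L → V × ℕ} {f' : (E' × Bool) ⊕ L → V' × ℕ} {x : L}

/-- The number of marked half-edges at `w`. -/
def r (S : Cf W f f' x) (w : W) : ℕ := Nat.card {e // S.M e ≠ none ∧ S.h (inl (e, S.m e)) = w}

/-- The number of unmarked half-edges at `w`. -/
def s (S : Cf W f f' x) (w : W) : ℕ :=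
  Nat.card {y : E × Bool // S.h (inl y) = w ∧ ¬ (S.M y.1 ≠ none ∧ S.m y.1 = y.2)} +
    Nat.card {z : L // S.h (inr z) = w} +
    Nat.card {y : E' × Bool // S.h' y = w ∧ ∀ e b, S.M e ≠ some (y.1, b)}

/-- The contribution. -/
def wt [Fintype W] (S : Cf W f f' x) : ℚ :=
  (-1) ^ Nat.card {e // S.M e ≠ none} * ∏ w, phi (S.s w) (S.r w)

instance [Finite V] [Finite E] [Finite V'] [Finite E'] [Finite L] [Finite W] :
    Finite (Cf W f f' x) := by
  apply Finite.of_injective (β := ((E × Bool) ⊕ L → W) × (E' × Bool → W) ×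
    (E → Option (E' × Bool)) × (E → Bool) × (W → V) × (W → V'))
    fun S => (S.h, S.h', S.M, S.m, S.c, S.c')
  intro S T hST
  simp only [Prod.mk.injEq] at hST
  obtain ⟨h1, h2, h3, h4, h5, h6⟩ := hST
  exact Cf.ext h1 h2 h3 h4 h5 h6

end Cf

instance isEmpty_kap : IsEmpty (Kap (und : V → ℕ × Multiset ℕ)) := by
  constructor
  rintro ⟨v, t⟩
  exact absurd t.2.2 (by simp [und])

theorem fs01 {ι : Type} [Finite ι] (p q : ι → Prop) (d : ι → ℕ)
    (hd : ∀ y, p y → d y = if q y then 1 else 0) :
    ∑ᶠ (y) (_ : p y), ({d y} : Multiset ℕ) =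
      Multiset.replicate (Nat.card {y // p y ∧ q y}) 1 +
        Multiset.replicate (Nat.card {y // p y ∧ ¬ q y}) 0 := by
  have := Fintype.ofFinite ι
  rw [finsum_eq_sum_of_fintype]
  have : ∀ y, ∑ᶠ (_ : p y), ({d y} : Multiset ℕ) =
      (if p y ∧ q y then {1} else 0) + (if p y ∧ ¬ q y then {0} else 0) := by
    intro y
    by_cases hp : p y <;> by_cases hq : q y <;> simp [hp, hq, hd]
  rw [Finset.sum_congr rfl fun y _ => this y, Finset.sum_add_distrib, Finset.sum_ite,
    Finset.sum_ite, Finset.sum_const_zero, Finset.sum_const_zero, Finset.sum_const,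
    Finset.sum_const, Multiset.nsmul_singleton, Multiset.nsmul_singleton, add_zero, add_zero,
    Nat.card_eq_fintype_card, Fintype.card_subtype, Nat.card_eq_fintype_card,
    Fintype.card_subtype]

theorem fs0 {ι : Type} [Finite ι] (p : ι → Prop) (d : ι → ℕ) (hd : ∀ y, p y → d y = 0) :
    ∑ᶠ (y) (_ : p y), ({d y} : Multiset ℕ) = Multiset.replicate (Nat.card {y // p y}) 0 := by
  rw [fs01 p (fun _ => False) d (fun y hy => by simp [hd y hy])]
  simp

theorem fsEmpty {α β : Type} [IsEmpty α] [IsEmpty β] (u : α → Multiset ℕ) (u' : β → Multiset ℕ)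
    (a b c : Multiset ℕ) : a + b + c + ∑ᶠ t, u t + ∑ᶠ t, u' t = a + b + c := by
  rw [finsum_of_isEmpty, finsum_of_isEmpty, add_zero, add_zero]

theorem fsg {α : Type} [Finite α] {β : α → Type} [∀ a, Finite (β a)] (F : (Σ a, β a) → ℚ) :
    ∑ᶠ z, F z = ∑ᶠ a, ∑ᶠ b, F ⟨a, b⟩ := by
  have := Fintype.ofFinite α
  have := fun a => Fintype.ofFinite (β a)
  rw [finsum_eq_sum_of_fintype, Fintype.sum_sigma, finsum_eq_sum_of_fintype]
  apply Finset.sum_congr rfl
  intro a _
  rw [finsum_eq_sum_of_fintype]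

section

variable {k : ℕ} {f : (E × Bool) ⊕ L → V × ℕ} {f' : (E' × Bool) ⊕ L → V' × ℕ}

theorem Dgn.g_zero' [Finite E] [Finite E'] (S : Dgn k und f und f') : S.g = 0 :=
  ((contr_iff (fun e' : E' => ∀ e b, S.M e ≠ some (e', b)) S.g S.h' (fun v => (und v).1)
    (fun _ => rfl) S.c).1 S.contr).1

theorem Dgn.tree [Finite E'] (S : Dgn k und f und f') :
    Trees (fun e' => ∀ e b, S.M e ≠ some (e', b)) S.h' S.c :=
  ((contr_iff (fun e' : E' => ∀ e b, S.M e ≠ some (e', b)) S.g S.h' (fun v => (und v).1)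
    (fun _ => rfl) S.c).1 S.contr).2

theorem Dgn.tree' [Finite E] (S : Dgn k und f und f') :
    Trees (fun e => S.M e = none) (fun y => S.h (inl y)) S.c' :=
  ((contr_iff (fun e : E => S.M e = none) S.g (fun y => S.h (inl y)) (fun v => (und v).1)
    (fun _ => rfl) S.c').1 S.contr').2

/-- Undecorated common degenerations as configurations. -/
def cfEquiv [Finite E] [Finite E'] (k : ℕ) (f : (E × Bool) ⊕ L → V × ℕ)
    (f' : (E' × Bool) ⊕ L → V' × ℕ) (x : L) :
    (Σ v : V', Σ S : Dgn k und f und (Function.update f' (inr x) (v, 0)),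
      ({e // S.M e ≠ none} → Bool)) ≃ Cf (Fin k) f f' x where
  toFun S :=
    { h := S.2.1.h
      h' := S.2.1.h'
      M := S.2.1.M
      m := fun e => if he : S.2.1.M e ≠ none then S.2.2 ⟨e, he⟩ else false
      c := S.2.1.c
      c' := S.2.1.c'
      m_none := fun e he => by simp [he]
      M_inj := S.2.1.M_inj
      h_M := S.2.1.h_M
      c_h := S.2.1.c_h
      c'_h := fun z hz => by
        rw [S.2.1.c'_h, Function.update_of_ne (by simpa using hz)]
      c'_h' := fun y => by
        rw [S.2.1.c'_h', Function.update_of_ne (by simp)]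
      tree := S.2.1.tree
      tree' := S.2.1.tree' }
  invFun S := ⟨S.c' (S.h (inr x)),
    { g := 0
      h := S.h
      h' := S.h'
      p := fun t => isEmptyElim t
      p' := fun t => isEmptyElim t
      M := S.M
      J := fun t => isEmptyElim t
      c := S.c
      c' := S.c'
      M_inj := S.M_inj
      J_inj := fun t => isEmptyElim t
      h_M := S.h_M
      p_J := fun t => isEmptyElim t
      c_h := S.c_h
      c_p := fun t => isEmptyElim t
      c'_h := fun z => by
        by_cases hz : z = x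
        · subst hz; simp
        · rw [S.c'_h z hz, Function.update_of_ne (by simpa using hz)]
      c'_h' := fun y => by rw [S.c'_h', Function.update_of_ne (by simp)]
      c'_p' := fun t => isEmptyElim t
      contr := (contr_iff (fun e' : E' => ∀ e b, S.M e ≠ some (e', b)) 0 S.h'
        (fun v => (und v).1) (fun _ => rfl) S.c).2 ⟨rfl, S.tree⟩
      contr' := (contr_iff (fun e : E => S.M e = none) 0 (fun y => S.h (inl y))
        (fun v => (und v).1) (fun _ => rfl) S.c').2 ⟨rfl, S.tree'⟩ },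
    fun e => S.m e.1⟩
  left_inv := by
    rintro ⟨v, S, ε⟩
    have hg := S.g_zero'
    have hv : S.c' (S.h (inr x)) = v := by rw [S.c'_h, Function.update_self]
    obtain ⟨g, h, h', p, p', M, J, c, c', a1, a2, a3, a4, a5, a6, a7, a8, a9, a10, a11⟩ := S
    simp only at hg hv
    subst hg hv
    obtain rfl : p = fun t => isEmptyElim t := funext fun t => isEmptyElim t
    obtain rfl : p' = fun t => isEmptyElim t := funext fun t => isEmptyElim t
    obtain rfl : J = fun t => isEmptyElim t := funext fun t => isEmptyElim t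
    refine Sigma.ext rfl (heq_of_eq (Sigma.ext rfl (heq_of_eq (funext fun e => ?_))))
    simp [e.2]
  right_inv := by
    intro S
    apply Cf.ext
    · rfl
    · rfl
    · rfl
    · funext e
      simp only
      split_ifs with he
      · rfl
      · exact (S.m_none e (not_not.1 he)).symm
    · rfl
    · rfl

theorem cfEquiv_wt [Finite E] [Finite E'] [Finite L] (k : ℕ) (f : (E × Bool) ⊕ L → V × ℕ)
    (f' : (E' × Bool) ⊕ L → V' × ℕ) (x : L) (hf : ∀ y, (f y).2 = 0) (hf' : ∀ y, (f' y).2 = 0)
    (v : V') (S : Dgn k und f und (Function.update f' (inr x) (v, 0)))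
    (ε : {e // S.M e ≠ none} → Bool) :
    (-1) ^ (Nat.card {e // S.M e ≠ none} + Nat.card {t // S.J t ≠ none}) *
      ∏ w, wk (S.g w) (Multiset.card (S.exps ε w)) (S.exps ε w) =
    (cfEquiv k f f' x ⟨v, S, ε⟩).wt := by
  unfold Cf.wt
  have hJ : Nat.card {t // S.J t ≠ none} = 0 := by
    rw [Nat.card_eq_zero]
    exact Or.inl ⟨fun t => isEmptyElim t.1⟩
  rw [hJ, add_zero]
  congr 1
  apply Finset.prod_congr rfl
  intro w _
  rw [S.g_zero']
  have hf'' : ∀ y, (Function.update f' (inr x) (v, 0) y).2 = 0 := by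
    intro y
    by_cases hy : y = inr x
    · subst hy; simp
    · rw [Function.update_of_ne hy, hf']
  apply wk_zero'
  unfold Dgn.exps
  refine (fsEmpty _ _ _ _ _).trans ?_
  simp only [hf, hf'', zero_add, add_zero]
  have e1 := fs01 (ι := E × Bool) (fun y => S.h (inl y) = w)
    (fun y => S.M y.1 ≠ none ∧ (cfEquiv k f f' x ⟨v, S, ε⟩).m y.1 = y.2)
    (fun y => (S.M y.1).elim 0 (fun _ => 0) +
      if h : S.M y.1 ≠ none then (if ε ⟨y.1, h⟩ = y.2 then 1 else 0) else 0) (by
      intro y _
      by_cases hM : S.M y.1 ≠ none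
      · have h0 : (S.M y.1).elim 0 (fun _ => 0) = 0 := by cases S.M y.1 <;> rfl
        simp only [h0, zero_add, dif_pos hM]
        have : (cfEquiv k f f' x ⟨v, S, ε⟩).m y.1 = ε ⟨y.1, hM⟩ := by
          simp only [cfEquiv, Equiv.coe_fn_mk, dif_pos hM]
        simp [hM, this]
      · have : S.M y.1 = none := not_not.1 hM
        simp [this])
  rw [e1, fs0 (ι := E' × Bool) _ (fun _ => 0) (fun _ _ => rfl),
    fs0 (ι := L) _ (fun _ => 0) (fun _ _ => rfl)]
  have er : Nat.card {y : E × Bool // S.h (inl y) = w ∧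
      (S.M y.1 ≠ none ∧ (cfEquiv k f f' x ⟨v, S, ε⟩).m y.1 = y.2)} =
      (cfEquiv k f f' x ⟨v, S, ε⟩).r w := by
    unfold Cf.r
    apply Nat.card_congr
    exact
      { toFun := fun y => ⟨y.1.1, y.2.2.1, by
          rw [y.2.2.2]
          exact y.2.1⟩
        invFun := fun e => ⟨(e.1, (cfEquiv k f f' x ⟨v, S, ε⟩).m e.1), e.2.2, e.2.1, rfl⟩
        left_inv := fun y => Subtype.ext (Prod.ext rfl y.2.2.2)
        right_inv := fun e => rfl }
  rw [er]
  unfold Cf.s
  rw [Multiset.replicate_add, Multiset.replicate_add]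
  simp only [add_assoc]
  congr 2
  rw [add_comm]
  rfl

theorem sum_dgn [Finite V] [Finite E] [Finite V'] [Finite E'] [Finite L] (k : ℕ)
    (f : (E × Bool) ⊕ L → V × ℕ)
    (f' : (E' × Bool) ⊕ L → V' × ℕ) (x : L) (hf : ∀ y, (f y).2 = 0) (hf' : ∀ y, (f' y).2 = 0) :
    ∑ᶠ v : V', ∑ᶠ S : Dgn k und f und (Function.update f' (inr x) (v, 0)), S.wt =
      ∑ᶠ S : Cf (Fin k) f f' x, S.wt := by
  have := Fintype.ofFinite V'
  have : Finite (Σ v : V', Σ S : Dgn k und f und (Function.update f' (inr x) (v, 0)),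
      ({e // S.M e ≠ none} → Bool)) := Finite.of_equiv _ (cfEquiv k f f' x).symm
  have : ∀ v, Finite (Dgn k und f und (Function.update f' (inr x) (v, 0))) := by
    intro v
    apply Finite.of_injective (β := Σ v : V', Σ S : Dgn k und f und
      (Function.update f' (inr x) (v, 0)), ({e // S.M e ≠ none} → Bool))
      fun S => ⟨v, S, fun _ => true⟩
    intro S T hST
    simp only [Sigma.mk.injEq, heq_eq_eq, true_and] at hST
    exact hST.1
  have hD : ∀ v, ∀ S : Dgn k und f und (Function.update f' (inr x) (v, 0)),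
      Finite ({e // S.M e ≠ none} → Bool) := fun v S => inferInstance
  rw [← finsum_comp_equiv (cfEquiv k f f' x), fsg]
  apply finsum_congr
  intro v
  rw [fsg]
  apply finsum_congr
  intro S
  have := Fintype.ofFinite ({e // S.M e ≠ none} → Bool)
  unfold Dgn.wt
  rw [finsum_eq_sum_of_fintype, Finset.mul_sum, finsum_eq_sum_of_fintype]
  apply Finset.sum_congr rfl
  intro ε _
  exact cfEquiv_wt k f f' x hf hf' v S ε

end

end Vale.Agent.P273.Num
end
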