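import Vale.Agent.P273.D14.H18.Base
import Vale.Agent.P273.D14.H599.LKA
import Vale.Agent.P273.D14.H387.Sep

/-!
The values of the functional `G` on graphs whose only decoration is at one vertex.
-/

noncomputable section
namespace Vale.Agent.P273.D14.H599
open Sum Vale.Agent.P273 Vale.Agent.P273.D14.H387 Vale.Agent.P273.C1.R3B Vale.Agent.P273.C1.R1B
open scoped Classical

variable {V E R T L : Type}

/-- Everything is trivial at the vertices other than `w`. -/
def av (w : V) (g : ℕ) (K : Multiset ℕ) : V → ℕ × Multiset ℕ :=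
  fun v => if v = w then (g, K) else (0, 0)

lemma av_self (w : V) (g : ℕ) (K : Multiset ℕ) : av w g K w = (g, K) := if_pos rfl

lemma av_ne {v w : V} (h : v ≠ w) (g : ℕ) (K : Multiset ℕ) : av w g K v = (0, 0) := if_neg h

lemma av_sum1 [Finite V] (w : V) (g : ℕ) (K : Multiset ℕ) : ∑ᶠ v, (av w g K v).1 = g := by
  rw [finsum_single' _ w (fun v hv => by rw [av_ne hv]), av_self]

lemma av_sum2 [Finite V] (w : V) (g : ℕ) (K : Multiset ℕ) :
    ∑ᶠ v, (av w g K v).2.sum = K.sum := by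
  rw [finsum_single' _ w (fun v hv => by rw [av_ne hv]; rfl), av_self]

/-- Connectedness. -/
def Cn (h : (E × Bool) ⊕ LL → V) : Prop :=
  ∀ s : Set V, (∀ e, h (inl (e, true)) ∈ s ↔ h (inl (e, false)) ∈ s) → s = ∅ ∨ s = Set.univ

/-- The valence. -/
def nh (h : (E × Bool) ⊕ LL → V) (v : V) : ℕ := Nat.card {y // h y = v}

lemma nv_nh (f : (E × Bool) ⊕ LL → V × ℕ) (v : V) : Q.nv f v = nh (fun y => (f y).1) v := rfl

lemma av_stab [Finite V] [Finite E] (f : (E × Bool) ⊕ LL → V × ℕ)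
    (w : V) (g : ℕ) (K : Multiset ℕ) :
    Q.Stab (av w g K) f 2 9 ↔ Cn (fun y => (f y).1) ∧
      g + Nat.card E + 1 = 2 + Nat.card V ∧
      (∀ v, 2 < 2 * (if v = w then g else 0) + nh (fun y => (f y).1) v) ∧
      Nat.card E + K.sum + ∑ᶠ y, (f y).2 = 9 := by
  have e : ∀ v, (av w g K v).1 = if v = w then g else 0 := by
    intro v
    unfold av
    split_ifs <;> rfl
  unfold Q.Stab
  rw [av_sum1, av_sum2]
  simp only [e]
  constructor
  · rintro ⟨-, -, -, h1, h2, h3, h4⟩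
    exact ⟨h1, h2, h3, h4⟩
  · rintro ⟨h1, h2, h3, h4⟩
    exact ⟨inferInstance, inferInstance, ⟨w⟩, h1, h2, h3, h4⟩

lemma nh_lp [Finite E] (h : (E × Bool) ⊕ LL → V) (w v : V) :
    nh (H387.lp h w) v = nh h v + if v = w then 2 else 0 := by
  have := Fintype.ofFinite E
  unfold nh
  rw [Nat.card_eq_fintype_card, Nat.card_eq_fintype_card, Fintype.card_subtype,
    Fintype.card_subtype, Finset.card_filter, Finset.card_filter]
  simp only [Fintype.sum_sum_type, Fintype.sum_prod_type (α₁ := Option E) (α₂ := Bool),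
    Fintype.sum_prod_type (α₁ := E) (α₂ := Bool), Fintype.sum_option]
  have e1 : ∀ b, H387.lp h w (inl (none, b)) = w := fun _ => rfl
  have e2 : ∀ e b, H387.lp h w (inl (some e, b)) = h (inl (e, b)) := fun _ _ => rfl
  have e3 : ∀ x, H387.lp h w (inr x) = h (inr x) := fun _ => rfl
  simp only [e1, e2, e3, Fintype.sum_bool]
  by_cases hv : v = w
  · subst hv
    simp only [if_true]
    omega
  · rw [if_neg (Ne.symm hv), if_neg hv]
    omega

lemma cn_lp (h : (E × Bool) ⊕ LL → V) (w : V) : Cn (H387.lp h w) ↔ Cn h := by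
  constructor
  · intro h1 s hs
    apply h1 s
    rintro (_ | e)
    · exact Iff.rfl
    · exact hs e
  · intro h1 s hs
    exact h1 s (fun e => hs (some e))

lemma zero_nm {w : V} {g : ℕ} {K : Multiset ℕ} (hK : 0 ∉ K) (v : V) : 0 ∉ (av w g K v).2 := by
  unfold av
  split_ifs
  · exact hK
  · simp

/-- The value of `κ_1`. -/
lemma G_kap {φ : Und} {f : (E × Bool) ⊕ LL → V × ℕ} {w : V}
    (hf : ∀ y, (f y).2 = 0) (hS : Q.Stab (av w 1 {1}) f 2 9) :
    G φ V E (av w 1 {1}) f = (nh (fun y => (f y).1) w : ℚ) / 24 *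
      val φ (H387.lp (fun y => (f y).1) w) := by
  rw [G_stab _ hS (zero_nm (by simp)), G0_kap (w := w) ⟨by rw [av_self], fun v hv => av_ne hv _ _,
    fun y hy => absurd (hf y) hy⟩ (by rw [av_self])
    (finsum_eq_zero_of_forall_eq_zero hf)]
  rfl

/-- The value of `ψ`. -/
lemma G_psi {φ : Und} {f : (E × Bool) ⊕ LL → V × ℕ} {w : V}
    (hf : ∀ y, (f y).2 ≠ 0 → (f y).1 = w) (hs : ∑ᶠ y, (f y).2 = 1)
    (hS : Q.Stab (av w 1 0) f 2 9) :
    G φ V E (av w 1 0) f = 1 / 24 * val φ (H387.lp (fun y => (f y).1) w) := by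
  rw [G_stab _ hS (zero_nm (by simp)), G0_psi (w := w) ⟨by rw [av_self], fun v hv => av_ne hv _ _,
    hf⟩ (by rw [av_self]) hs]

/-- The value of the loop. -/
lemma G_lop {φ : Und} {f : (E × Bool) ⊕ LL → V × ℕ} {w : V}
    (hf : ∀ y, (f y).2 = 0) (hS : Q.Stab (av w 0 0) f 2 9) :
    G φ V E (av w 0 0) f = val φ (fun y => (f y).1) := by
  rw [G_stab _ hS (zero_nm (by simp)), G0_ty1 ⟨fun v => by unfold av; split_ifs <;> rfl, hf⟩]

end Vale.Agent.P273.D14.H599
end
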