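import Vale.Agent.P273.D14.H599.F11A
import Vale.Agent.P273.D14.H18.F0

/-!
The terms of the relation with one vertex.
-/

noncomputable section
namespace Vale.Agent.P273.D14.H599
open Sum Vale.Agent.P273 Vale.Agent.P273.D14.H387 Vale.Agent.P273.D14.H18
open Vale.Agent.P273.C1.R3B Vale.Agent.P273.C1.R1B
open scoped Classical

variable {V E R T L : Type}

lemma av_dil {φ : Und} (hφ : φ.Inv) (f : (E × Bool) ⊕ LL → V × ℕ) (w : V) (g : ℕ)
    (K : Multiset ℕ) : G φ V E (av w g (0 ::ₘ K)) f =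
      (2 * (g : ℚ) - 2 + nh (fun y => (f y).1) w + K.card) * G φ V E (av w g K) f := by
  have h := (tr_G hφ).2.2 V E (av w g K) f w
  rw [av_self] at h
  have e : Function.update (av w g K) w (g, 0 ::ₘ K) = av w g (0 ::ₘ K) := by
    funext v
    by_cases hv : v = w
    · subst hv
      rw [Function.update_self, av_self]
    · rw [Function.update_of_ne hv, av_ne hv, av_ne hv]
  dsimp only at h
  rw [e] at h
  exact h

/-- Nothing happens outside of the special vertex. -/
def Out (W : Env R T L LL) : Prop :=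
  (∀ v, W.dec v = (0, 0)) ∧ ∀ y p, W.use y = inr p → p.2 = 0

lemma out_pt {φ : Und} {W : Env R T L LL} (hW : ∀ v, 0 ∉ (W.dec v).2) {K : Multiset ℕ}
    {c : L → ℕ} (h : Mv.sg (G φ) (W.graft (pt1 1 K c)) ≠ 0) : Out W := by
  have hv : Q.Valid (W.graft (pt1 1 K c)).dec (W.graft (pt1 1 K c)).hf 2 9 := by
    by_contra h1
    exact h (G_invalid h1)
  have h0 : H387.G0 φ (rz (W.graft (pt1 1 K c)).dec) (W.graft (pt1 1 K c)).hf ≠ 0 := by
    intro h1
    apply h
    change G φ _ _ _ _ = 0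
    rw [G_of_valid hv, h1, mul_zero]
  have key : ∀ w, Ty (rz (W.graft (pt1 1 K c)).dec) (W.graft (pt1 1 K c)).hf w → Out W := by
    intro w hw
    have hw0 : w = inl 0 := by
      by_contra hne
      have := congrArg Prod.fst (hw.2.1 (inl 0) (Ne.symm hne))
      change (1 : ℕ) = 0 at this
      exact one_ne_zero this
    subst hw0
    constructor
    · intro v
      have h1 := hw.2.1 (inr v) (by simp)
      change ((W.dec v).1, (W.dec v).2.filter (· ≠ 0)) = (0, 0) at h1
      rw [Multiset.filter_eq_self.2 (fun x hx h0 => by subst h0; exact hW v hx)] at h1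
      exact h1
    · intro y p hy
      by_contra hp
      have h1 := hw.2.2 (lft _ y) (by rw [hf_env W hy]; exact hp)
      rw [hf_env W hy] at h1
      cases h1
  rcases G0_ne h0 with ⟨h1, -⟩ | ⟨w, h1, -⟩
  · exfalso
    have := congrArg Prod.fst (h1.1 (inl 0))
    change (1 : ℕ) = 0 at this
    exact one_ne_zero this
  · exact key w h1

lemma out_lp [Fintype L] {φ : Und} (hφ : φ.Br) {W : Env R T L LL} (hW : ∀ v, 0 ∉ (W.dec v).2)
    (hL : 0 < Fintype.card L) (h : Mv.sg (G φ) (W.graft (lpG 1 L)) ≠ 0) : Out W := by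
  have hg := no_genus hφ (stab_lpG (M := L) (le_refl 1) (by omega)) h
  have hv : Q.Valid (W.graft (lpG 1 L)).dec (W.graft (lpG 1 L)).hf 2 9 := by
    by_contra h1
    exact h (G_invalid h1)
  have h0 : H387.G0 φ (rz (W.graft (lpG 1 L)).dec) (W.graft (lpG 1 L)).hf ≠ 0 := by
    intro h1
    apply h
    change G φ _ _ _ _ = 0
    rw [G_of_valid hv, h1, mul_zero]
  rcases G0_ne h0 with ⟨h1, -⟩ | ⟨w, h1, -⟩
  · constructor
    · intro v
      have h2 := h1.1 (inr v)
      change ((W.dec v).1, (W.dec v).2.filter (· ≠ 0)) = (0, 0) at h2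
      rw [Multiset.filter_eq_self.2 (fun x hx h0 => by subst h0; exact hW v hx)] at h2
      exact h2
    · intro y p hy
      have h2 := h1.2 (lft _ y)
      rw [hf_env W hy] at h2
      exact h2
  · exfalso
    have h2 := h1.1
    rcases w with w | v
    · change (0 : ℕ) = 1 at h2
      exact zero_ne_one h2
    · change (W.dec v).1 = 1 at h2
      rw [hg v] at h2
      exact zero_ne_one h2

lemma hf_pt (W : Env R T L LL) {g : ℕ} {K : Multiset ℕ} {c : L → ℕ} {y : (T × Bool) ⊕ LL} {z : L}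
    (hy : W.use y = inl z) : (W.graft (pt1 g K c)).hf (lft _ y) = (inl 0, c z + W.b z) := by
  rw [graft_hf_lft, Env.usehf_inl hy]
  rfl

lemma cases_pt (y : (((Fin 0) ⊕ T) × Bool) ⊕ LL) : ∃ y', y = lft (Fin 0) y' := by
  rcases graft_cases y with ⟨e, _, _⟩ | h
  · exact e.elim0
  · exact h

lemma dec_pt {W : Env R T L LL} (hO : Out W) (g : ℕ) (K : Multiset ℕ) (c : L → ℕ) :
    (W.graft (pt1 g K c)).dec = av (inl 0) g (K + W.unused (pt1 g K c) 0) := by
  funext v
  rcases v with v | v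
  · rw [Subsingleton.elim v 0, av_self, Env.graft_dec_inl]
    rfl
  · rw [av_ne (by simp), Env.graft_dec_inr]
    exact hO.1 v

lemma dec_lp {W : Env R T L LL} (hO : Out W) :
    (W.graft (lpG 1 L)).dec = av (inl 0) 0 (W.unused (lpG 1 L) 0) := by
  funext v
  rcases v with v | v
  · rw [Subsingleton.elim v 0, av_self, Env.graft_dec_inl]
    show (1 - 1, 0 + _) = _
    rw [zero_add]
  · rw [av_ne (by simp), Env.graft_dec_inr]
    exact hO.1 v

/-- The half-edges of the graph with one vertex. -/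
abbrev f0 (W : Env R T L LL) : (((Fin 0) ⊕ T) × Bool) ⊕ LL → (Fin 1 ⊕ R) × ℕ :=
  (W.graft (pt1 1 0 (fun _ => 0))).hf

/-- The underlying map. -/
abbrev HH (W : Env R T L LL) : (((Fin 0) ⊕ T) × Bool) ⊕ LL → Fin 1 ⊕ R := fun y => (f0 W y).1

lemma fst_pt (W : Env R T L LL) (g : ℕ) (K : Multiset ℕ) (c : L → ℕ) :
    (fun y => ((W.graft (pt1 g K c)).hf y).1) = HH W := by
  funext y
  obtain ⟨y, rfl⟩ := cases_pt y
  rcases hy : W.use y with z | p
  · rw [hf_pt W hy]
    show _ = (f0 W (lft (Fin 0) y)).1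
    rw [f0, hf_pt W hy]
  · rw [hf_env W hy]
    show _ = (f0 W (lft (Fin 0) y)).1
    rw [f0, hf_env W hy]

lemma snd_f0 {W : Env R T L LL} (hO : Out W) (hb : ∀ z, W.b z = 0) (y) : (f0 W y).2 = 0 := by
  obtain ⟨y, rfl⟩ := cases_pt y
  rcases hy : W.use y with z | p
  · rw [f0, hf_pt W hy, hb]
  · rw [f0, hf_env W hy]
    exact hO.2 y p hy

lemma snd_psi {W : Env R T L LL} (hO : Out W) (hb : ∀ z, W.b z = 0)
    (hu : ∀ y z x, W.use y = inl x → W.use z = inl x → y = z) {z : L} {y0 : (T × Bool) ⊕ LL}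
    (hz : W.use y0 = inl z) (y) :
    ((W.graft (pt1 1 0 (fun y => if y = z then 1 else 0))).hf y).2 =
      if y = lft (Fin 0) y0 then 1 else 0 := by
  obtain ⟨y, rfl⟩ := cases_pt y
  have hi : (lft (Fin 0) y = lft (Fin 0) y0) ↔ y = y0 := by
    constructor
    · intro h
      rcases y with ⟨t, b⟩ | x <;> rcases y0 with ⟨t', b'⟩ | x' <;>
        simp only [lft, Sum.map_inl, Sum.map_inr, inl.injEq, inr.injEq, Prod.mk.injEq, reduceCtorEq,
          id] at h ⊢
      · exact h
      · exact h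
    · rintro rfl
      rfl
  rcases hy : W.use y with z' | p
  · rw [hf_pt W hy, hb, add_zero]
    dsimp only
    by_cases h : z' = z
    · subst h
      rw [if_pos rfl, if_pos (hi.2 (hu _ _ _ hy hz))]
    · rw [if_neg h, if_neg]
      intro h'
      rw [hi.1 h', hz] at hy
      exact h (inl.inj hy).symm
  · rw [hf_env W hy, if_neg]
    · exact hO.2 y p hy
    · intro h'
      rw [hi.1 h', hz] at hy
      cases hy

end Vale.Agent.P273.D14.H599
end
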