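import Vale.Agent.P273.D14.H599.F11B

/-!
The values of the terms of the relation with one vertex.
-/

noncomputable section
namespace Vale.Agent.P273.D14.H599
open Sum Vale.Agent.P273 Vale.Agent.P273.D14.H387 Vale.Agent.P273.D14.H18
open Vale.Agent.P273.C1.R3B Vale.Agent.P273.C1.R1B
open scoped Classical

variable {V E R T L : Type}

/-- The stability of the graph with `κ_1`. -/
def Sk (W : Env R T L LL) : Prop := Q.Stab (av (inl 0) 1 {1}) (f0 W) 2 9

/-- The value on the graph with a self-loop. -/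
def Lam (φ : Und) (W : Env R T L LL) : ℚ := val φ (H387.lp (HH W) (inl 0))

lemma sk_iff [Finite R] [Finite T] {W : Env R T L LL} (hO : Out W) (hb : ∀ z, W.b z = 0) :
    Sk W ↔ Cn (HH W) ∧ 1 + Nat.card (Fin 0 ⊕ T) + 1 = 2 + Nat.card (Fin 1 ⊕ R) ∧
      (∀ v, 2 < 2 * (if v = inl 0 then 1 else 0) + nh (HH W) v) ∧
      Nat.card (Fin 0 ⊕ T) + 1 = 9 := by
  unfold Sk
  rw [av_stab, finsum_eq_zero_of_forall_eq_zero (snd_f0 hO hb)]
  simp only [Multiset.sum_singleton, add_zero]
  convert Iff.rfl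

lemma val_kap [Finite R] [Finite T] {φ : Und} {W : Env R T L LL} (hO : Out W)
    (hb : ∀ z, W.b z = 0) : G φ _ _ (av (inl 0) 1 {1}) (f0 W) =
      if Sk W then (nh (HH W) (inl 0) : ℚ) / 24 * Lam φ W else 0 := by
  split_ifs with h
  · rw [G_kap (snd_f0 hO hb) h]
    rfl
  · exact G_invalid (fun h1 => h h1.1)

lemma sum_psi [Finite T] {W : Env R T L LL} (hO : Out W) (hb : ∀ z, W.b z = 0)
    (hu : ∀ y z x, W.use y = inl x → W.use z = inl x → y = z) {z : L} {y0 : (T × Bool) ⊕ LL}
    (hz : W.use y0 = inl z) :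
    ∑ᶠ y, ((W.graft (pt1 1 0 (fun y => if y = z then 1 else 0))).hf y).2 = 1 := by
  rw [finsum_eq_single _ (lft (Fin 0) y0)]
  · rw [snd_psi hO hb hu hz, if_pos rfl]
  · intro y hy
    rw [snd_psi hO hb hu hz, if_neg hy]

lemma val_psi [Finite R] [Finite T] {φ : Und} {W : Env R T L LL} (hO : Out W)
    (hb : ∀ z, W.b z = 0) (hu : ∀ y z x, W.use y = inl x → W.use z = inl x → y = z) {z : L}
    {y0 : (T × Bool) ⊕ LL} (hz : W.use y0 = inl z) :
    G φ _ _ (av (inl 0) 1 0) (W.graft (pt1 1 0 (fun y => if y = z then 1 else 0))).hf =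
      if Sk W then 1 / 24 * Lam φ W else 0 := by
  have hS : Q.Stab (av (inl 0) 1 0) (W.graft (pt1 1 0 (fun y => if y = z then 1 else 0))).hf 2 9 ↔
      Sk W := by
    rw [av_stab, sk_iff hO hb, sum_psi hO hb hu hz, fst_pt]
    simp only [Multiset.sum_zero, add_zero]
    convert Iff.rfl
  split_ifs with h
  · rw [G_psi _ (sum_psi hO hb hu hz) (hS.2 h), fst_pt]
    · rfl
    · intro y hy
      rw [snd_psi hO hb hu hz] at hy
      split_ifs at hy with h1
      · rw [h1, hf_pt W hz]
      · exact absurd rfl hy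
  · exact G_invalid (fun h1 => h (hS.1 h1.1))

/-- The bijection of the half-edges. -/
def qq (y : (Fin 1 ⊕ T) × Bool) : Option (Fin 0 ⊕ T) × Bool :=
  y.1.elim (fun _ => (none, y.2)) fun t => (some (inr t), y.2)

lemma qq_bij : (qq (T := T)).Bijective := by
  constructor
  · rintro ⟨e | t, b⟩ ⟨e' | t', b'⟩ h
    · rw [Subsingleton.elim e e']
      have := congrArg Prod.snd h
      exact Prod.ext rfl this
    · have := congrArg Prod.fst h
      cases this
    · have := congrArg Prod.fst h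
      cases this
    · have h1 := congrArg Prod.fst h
      have h2 : b = b' := congrArg Prod.snd h
      have h3 : t = t' := inr_injective (Option.some_injective _ h1)
      rw [h2, h3]
  · rintro ⟨_ | (e | t), b⟩
    · exact ⟨(inl 0, b), rfl⟩
    · exact e.elim0
    · exact ⟨(inr t, b), rfl⟩

lemma lp_iso {φ : Und} (hφ : φ.Inv) {W : Env R T L LL} (hO : Out W) (hb : ∀ z, W.b z = 0)
    (a : Fin 1 ⊕ R → ℕ × Multiset ℕ) : G φ _ _ a (W.graft (lpG 1 L)).hf =
      G φ _ _ a (fun y => (H387.lp (HH W) (inl 0) y, 0)) := by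
  refine (tr_G hφ).2.1 _ _ _ _ a _ _ id qq Function.bijective_id qq_bij (fun e => ?_) ?_
  · rcases e with e | t <;> rfl
  · intro y
    rcases graft_cases y with ⟨e, b, rfl⟩ | ⟨y, rfl⟩
    · rw [Subsingleton.elim e 0]
      rfl
    · have h1 : H387.lp (HH W) (inl 0) ((lft (Fin 1) y).map qq id) = HH W (lft (Fin 0) y) := by
        rcases y with ⟨t, b⟩ | x <;> rfl
      rw [h1]
      rcases hy : W.use y with z | p
      · rw [graft_hf_lft, Env.usehf_inl hy, hb]
        show ((f0 W (lft (Fin 0) y)).1, 0) = _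
        rw [f0, hf_pt W hy]
        rfl
      · rw [hf_env W hy, hO.2 y p hy]
        show ((f0 W (lft (Fin 0) y)).1, 0) = _
        rw [f0, hf_env W hy]
        rfl

lemma val_lop [Finite R] [Finite T] {φ : Und} (hφ : φ.Inv) {W : Env R T L LL} (hO : Out W)
    (hb : ∀ z, W.b z = 0) : G φ _ _ (av (inl 0) 0 0) (W.graft (lpG 1 L)).hf =
      if Sk W then Lam φ W else 0 := by
  rw [lp_iso hφ hO hb]
  have hS : Q.Stab (av (inl 0) 0 0) (fun y => (H387.lp (HH W) (inl 0) y, 0)) 2 9 ↔ Sk W := by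
    rw [av_stab, sk_iff hO hb, cn_lp, Finite.card_option]
    simp only [Multiset.sum_zero, add_zero, finsum_zero, nh_lp]
    refine and_congr_right fun _ => ?_
    refine and_congr (by omega) (and_congr_left fun _ => forall_congr' fun v => ?_)
    split_ifs <;> omega
  split_ifs with h
  · rw [G_lop (fun _ => rfl) (hS.2 h)]
    rfl
  · exact G_invalid (fun h1 => h (hS.1 h1.1))

lemma card_used [Finite T] {W : Env R T L LL}
    (hu : ∀ y z x, W.use y = inl x → W.use z = inl x → y = z) :
    nh (HH W) (inl 0) = Nat.card {z // inl z ∈ Set.range W.use} := by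
  have hex : ∀ z : {z // inl z ∈ Set.range W.use}, ∃ y, W.use y = inl z.1 := fun z => z.2
  choose y hy using hex
  symm
  apply Nat.card_eq_of_bijective
    (fun z => (⟨lft (Fin 0) (y z), by
      show (f0 W _).1 = _
      rw [f0, hf_pt W (hy z)]⟩ : {y // HH W y = inl 0}))
  constructor
  · intro z z' h
    have h1 : lft (Fin 0) (y z) = lft (Fin 0) (y z') := congrArg Subtype.val h
    have h2 : y z = y z' := by
      revert h1
      generalize y z = a
      generalize y z' = b
      intro h1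
      rcases a with ⟨t, c⟩ | x <;> rcases b with ⟨t', c'⟩ | x' <;>
        simp only [lft, Sum.map_inl, Sum.map_inr, inl.injEq, inr.injEq, Prod.mk.injEq,
          reduceCtorEq, id] at h1 ⊢
      · exact h1
      · exact h1
    have h3 := hy z
    rw [h2, hy z'] at h3
    exact Subtype.ext (inl.inj h3).symm
  · rintro ⟨y', hy'⟩
    obtain ⟨y'', rfl⟩ := cases_pt y'
    rcases h : W.use y'' with z | p
    · refine ⟨⟨z, y'', h⟩, ?_⟩
      apply Subtype.ext
      exact congrArg (lft (Fin 0)) (hu _ _ _ (hy ⟨z, y'', h⟩) h)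
    · exfalso
      change (f0 W (lft (Fin 0) y'')).1 = inl 0 at hy'
      rw [f0, hf_env W h] at hy'
      cases hy'

end Vale.Agent.P273.D14.H599
end
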