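import Vale.Agent.P273.D14.H599.Cf

/-! Insertion of a new vertex. -/

noncomputable section

namespace Vale.Agent.P273.Num

open Sum Vale.Agent.P273.Q
open scoped Classical Nat

variable {V E V' E' L W : Type}

theorem card_add {ι : Type} [Finite ι] {p q : ι → Prop} (i0 : ι) (c : Prop) (hp : ¬ p i0)
    (h : ∀ i, q i ↔ p i ∨ (i = i0 ∧ c)) :
    Nat.card {i // q i} = Nat.card {i // p i} + if c then 1 else 0 := by
  have e1 : {i | q i} = {i | p i} ∪ {i | i = i0 ∧ c} := by
    ext i
    exact h i
  have e2 : Disjoint {i | p i} {i | i = i0 ∧ c} := by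
    rw [Set.disjoint_left]
    rintro i hi ⟨rfl, _⟩
    exact hp hi
  change Set.ncard {i | q i} = Set.ncard {i | p i} + _
  rw [e1, Set.ncard_union_eq e2 (Set.toFinite _) (Set.toFinite _)]
  congr 1
  split_ifs with hc
  · rw [show {i | i = i0 ∧ c} = {i0} by ext; simp [hc], Set.ncard_singleton]
  · rw [show {i | i = i0 ∧ c} = ∅ by ext; simp [hc], Set.ncard_empty]

theorem card_one {ι : Type} {p : ι → Prop} (i0 : ι) (h : ∀ i, p i ↔ i = i0) :
    Nat.card {i // p i} = 1 := by
  rw [Nat.card_eq_one_iff_unique]
  exact ⟨⟨fun a b => Subtype.ext (((h _).1 a.2).trans ((h _).1 b.2).symm)⟩, ⟨⟨i0, (h _).2 rfl⟩⟩⟩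

theorem bne_iff (s t : Bool) : s ≠ t ↔ s = !t := by cases s <;> cases t <;> simp

namespace Cf

variable {f : (E × Bool) ⊕ L → V × ℕ} {f' : (E' × Bool) ⊕ L → V' × ℕ} {x : L}

section

variable (A : Cf W f f' x) (e0 : E) (p : E' × Bool) (hM : A.M e0 = some p)
  (hx : A.h (inl (e0, A.m e0)) = A.h (inr x))

/-- The half-edge of `e0` and the leg `x` move to the new vertex. -/
def insH : (E × Bool) ⊕ L → Option W := fun y =>
  if y = inl (e0, A.m e0) ∨ y = inr x then none else some (A.h y)

/-- The second end of the new edge. -/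
def insH' : E' × Bool → Option W := fun y =>
  if y = (p.1, xor p.2 (!A.m e0)) then none else some (A.h' y)

theorem insH_none {y} : A.insH e0 y = none ↔ y = inl (e0, A.m e0) ∨ y = inr x := by
  unfold insH
  split_ifs with h <;> simp [h]

theorem insH_some {y} (w : W) :
    A.insH e0 y = some w ↔ ¬ (y = inl (e0, A.m e0) ∨ y = inr x) ∧ A.h y = w := by
  unfold insH
  split_ifs with h
  · simp [h]
  · simp only [Option.some.injEq]; tauto

theorem insH'_none {y} : A.insH' e0 p y = none ↔ y = (p.1, xor p.2 (!A.m e0)) := by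
  unfold insH'
  split_ifs with h
  · exact ⟨fun _ => h, fun _ => rfl⟩
  · exact ⟨fun h' => absurd h' (by simp), fun h' => absurd h' h⟩

theorem insH'_some {y} (w : W) :
    A.insH' e0 p y = some w ↔ y ≠ (p.1, xor p.2 (!A.m e0)) ∧ A.h' y = w := by
  unfold insH'
  split_ifs with h
  · simp [h]
  · simp only [Option.some.injEq]; tauto

/-- Insertion of a new vertex with the marked half-edge of `e0` and the leg `x`. -/
def ins [Finite E] [Finite E'] [Finite W] : Cf (Option W) f f' x where
  h := A.insH e0
  h' := A.insH' e0 p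
  M e := if e = e0 then none else A.M e
  m e := if e = e0 then false else A.m e
  c w := w.elim (A.c (A.h (inr x))) A.c
  c' w := w.elim (A.c' (A.h (inl (e0, !A.m e0)))) A.c'
  m_none e he := by
    split_ifs with h
    · rfl
    · rw [if_neg h] at he
      exact A.m_none e he
  M_inj e₁ e₂ e' b₁ b₂ h₁ h₂ := by
    split_ifs at h₁ h₂
    exact A.M_inj e₁ e₂ e' b₁ b₂ h₁ h₂
  h_M e e' b he s := by
    split_ifs at he with h
    have h1 : A.insH e0 (inl (e, s)) = some (A.h (inl (e, s))) := by
      rw [insH_some]
      simp [h]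
    have h2 : A.insH' e0 p (e', xor b s) = some (A.h' (e', xor b s)) := by
      rw [insH'_some]
      refine ⟨?_, rfl⟩
      intro h3
      have h4 : e' = p.1 := congrArg Prod.fst h3
      exact h (A.M_inj e e0 e' b p.2 he (by rw [hM, h4]))
    rw [h1, h2, A.h_M e e' b he]
  c_h y := by
    by_cases h : y = inl (e0, A.m e0) ∨ y = inr x
    · rw [(A.insH_none e0).2 h]
      rcases h with rfl | rfl
      · simp only [Option.elim_none]
        rw [← hx, A.c_h]
      · simp only [Option.elim_none]
        rw [A.c_h]
    · rw [(A.insH_some e0 (A.h y)).2 ⟨h, rfl⟩]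
      exact A.c_h y
  c'_h z hz := by
    rw [(A.insH_some e0 (A.h (inr z))).2 ⟨by simp [hz], rfl⟩]
    exact A.c'_h z hz
  c'_h' y := by
    by_cases h : y = (p.1, xor p.2 (!A.m e0))
    · rw [(A.insH'_none e0 p).2 h, h]
      simp only [Option.elim_none]
      rw [A.h_M e0 p.1 p.2 hM, A.c'_h']
    · rw [(A.insH'_some e0 p (A.h' y)).2 ⟨h, rfl⟩]
      exact A.c'_h' y
  tree := by
    have h0 : ¬ ∀ e b, A.M e ≠ some (p.1, b) := fun h => h e0 p.2 hM
    refine (Trees.pendant (c := A.c) (h := A.h') (P := fun e' => ∀ e b, A.M e ≠ some (e', b))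
      p.1 (xor p.2 (!A.m e0)) (fun e' => ?_) h0
      (fun e' he' s => ?_) ((A.insH'_none e0 p).2 rfl) (A.h (inr x)) ?_ (fun _ => rfl) rfl).2 A.tree
    · constructor
      · intro h
        by_cases he : e' = p.1
        · exact Or.inr he
        · left
          intro e b hb
          have := h e b
          rw [if_neg (by
            rintro rfl
            rw [hM] at hb
            exact he (congrArg Prod.fst (Option.some.inj hb)).symm)] at this
          exact this hb
      · rintro (h | rfl) e b
        · split_ifs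
          · simp
          · exact h e b
        · split_ifs with he
          · simp
          · intro hb
            exact he (A.M_inj e e0 p.1 b p.2 hb hM)
    · rw [insH'_some]
      refine ⟨?_, rfl⟩
      intro h3
      have h4 : e' = p.1 := congrArg Prod.fst h3
      rw [h4] at he'
      exact h0 he'
    · rw [insH'_some]
      constructor
      · intro h
        have := congrArg Prod.snd h
        simp at this
      · rw [← hx, A.h_M e0 p.1 p.2 hM]
        cases p.2 <;> cases A.m e0 <;> rfl
  tree' := by
    refine (Trees.pendant (c := A.c') (h := fun y => A.h (inl y)) (P := fun e => A.M e = none)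
      e0 (A.m e0) (fun e => ?_) (by simp [hM])
      (fun e he s => ?_) ((A.insH_none e0).2 (Or.inl rfl)) (A.h (inl (e0, !A.m e0))) ?_
      (fun _ => rfl) rfl).2 A.tree'
    · split_ifs with h
      · simp [h]
      · simp [h]
    · rw [insH_some]
      refine ⟨?_, rfl⟩
      rintro (h | h)
      · simp only [inl.injEq, Prod.mk.injEq] at h
        rw [h.1, hM] at he
        exact Option.some_ne_none _ he
      · exact absurd h (by simp)
    · rw [insH_some]
      refine ⟨?_, rfl⟩
      rintro (h | h)
      · simp at h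
      · exact absurd h (by simp)

end

end Cf

end Vale.Agent.P273.Num
end
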