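import Vale.Agent.P273.D14.H599.Ins

/-! The weight of the configuration with the new vertex. -/

noncomputable section

namespace Vale.Agent.P273.Num

open Sum Vale.Agent.P273.Q
open scoped Classical Nat

variable {V E V' E' L W : Type}

namespace Cf

variable {f : (E × Bool) ⊕ L → V × ℕ} {f' : (E' × Bool) ⊕ L → V' × ℕ} {x : L}

section

variable [Finite E] [Finite E'] [Finite W] (A : Cf W f f' x) (e0 : E) (p : E' × Bool)
  (hM : A.M e0 = some p) (hx : A.h (inl (e0, A.m e0)) = A.h (inr x))

theorem ins_h : (A.ins e0 p hM hx).h = A.insH e0 := rfl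

theorem ins_h' : (A.ins e0 p hM hx).h' = A.insH' e0 p := rfl

theorem ins_M (e : E) : (A.ins e0 p hM hx).M e = if e = e0 then none else A.M e := rfl

theorem ins_m (e : E) : (A.ins e0 p hM hx).m e = if e = e0 then false else A.m e := rfl

theorem ins_P (e' : E') : (∀ e b, (A.ins e0 p hM hx).M e ≠ some (e', b)) ↔
    (∀ e b, A.M e ≠ some (e', b)) ∨ e' = p.1 := by
  constructor
  · intro h
    by_cases he : e' = p.1
    · exact Or.inr he
    · left
      intro e b hb
      have := h e b
      rw [ins_M, if_neg (by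
        rintro rfl
        rw [hM] at hb
        exact he (congrArg Prod.fst (Option.some.inj hb)).symm)] at this
      exact this hb
  · rintro (h | rfl) e b
    · rw [ins_M]
      split_ifs
      · simp
      · exact h e b
    · rw [ins_M]
      split_ifs with he
      · simp
      · intro hb
        exact he (A.M_inj e e0 p.1 b p.2 hb hM)

theorem card_ins : Nat.card {e // A.M e ≠ none} =
    Nat.card {e // (A.ins e0 p hM hx).M e ≠ none} + 1 := by
  have := card_add (p := fun e => (A.ins e0 p hM hx).M e ≠ none) (q := fun e => A.M e ≠ none) e0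
    True (by simp [ins_M]) (fun e => by
      rw [ins_M]
      split_ifs with h
      · simp [h, hM]
      · simp [h])
  simpa using this

theorem ins_r_none : (A.ins e0 p hM hx).r none = 0 := by
  unfold r
  rw [Nat.card_eq_zero]
  left
  constructor
  rintro ⟨e, h1, h2⟩
  rw [ins_M] at h1
  rw [ins_h, insH_none] at h2
  split_ifs at h1 with he
  · simp at h1
  · rcases h2 with h2 | h2
    · simp only [inl.injEq, Prod.mk.injEq] at h2
      exact he h2.1
    · exact absurd h2 (by simp)

theorem ins_r_some (w : W) : A.r w = (A.ins e0 p hM hx).r (some w) +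
    if w = A.h (inr x) then 1 else 0 := by
  unfold r
  apply card_add e0
  · simp [ins_M]
  · intro e
    rw [ins_M, ins_m, ins_h]
    by_cases he : e = e0
    · subst he
      simp only [hM, hx, ne_eq, reduceCtorEq, not_false_eq_true, true_and, if_true, not_true,
        false_and, false_or]
      exact eq_comm
    · simp only [insH_some, he, false_and, or_false]
      simp [he]

theorem ins_s_none : (A.ins e0 p hM hx).s none = 3 := by
  unfold s
  rw [card_one (e0, A.m e0), card_one x, card_one (p.1, xor p.2 (!A.m e0))]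
  · intro y
    rw [ins_h', insH'_none, ins_P]
    constructor
    · exact fun h => h.1
    · rintro rfl
      exact ⟨rfl, Or.inr rfl⟩
  · intro z
    rw [ins_h, insH_none]
    simp
  · intro y
    rw [ins_h, insH_none, ins_M]
    constructor
    · rintro ⟨h | h, -⟩
      · exact inl_injective h
      · exact absurd h (by simp)
    · rintro rfl
      simp

theorem ins_s_some [Finite L] (w : W) : (A.ins e0 p hM hx).s (some w) = A.s w := by
  unfold s
  have e1 : Nat.card {y : E × Bool // (A.ins e0 p hM hx).h (inl y) = some w ∧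
      ¬ ((A.ins e0 p hM hx).M y.1 ≠ none ∧ (A.ins e0 p hM hx).m y.1 = y.2)} =
      Nat.card {y : E × Bool // A.h (inl y) = w ∧ ¬ (A.M y.1 ≠ none ∧ A.m y.1 = y.2)} := by
    apply Nat.card_congr
    apply Equiv.subtypeEquivRight
    rintro ⟨e, t⟩
    rw [ins_h, ins_M, ins_m, insH_some]
    by_cases he : e = e0
    · subst he
      by_cases ht : t = A.m e
      · subst ht
        simp [hM]
      · simp [hM, ht, Ne.symm ht]
    · simp [he]
  have e2 := card_add (p := fun z => (A.ins e0 p hM hx).h (inr z) = some w)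
    (q := fun z => A.h (inr z) = w) x (w = A.h (inr x)) (by
      rw [ins_h, insH_some]
      simp) (fun z => by
      rw [ins_h, insH_some]
      by_cases hz : z = x
      · subst hz
        simp [eq_comm]
      · simp [hz])
  have i0 : ∀ y : E' × Bool, y.1 = p.1 → y ≠ (p.1, xor p.2 (!A.m e0)) →
      y = (p.1, xor p.2 (A.m e0)) := by
    rintro ⟨e', t⟩ (rfl : e' = p.1) h
    have : t ≠ xor p.2 (!A.m e0) := fun h' => h (by rw [h'])
    cases t <;> cases hp : p.2 <;> cases hm : A.m e0 <;> simp_all
  have hw0 : A.h' (p.1, xor p.2 (A.m e0)) = A.h (inr x) := by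
    rw [← hx, A.h_M e0 p.1 p.2 hM]
  have hne : (p.1, xor p.2 (A.m e0)) ≠ (p.1, xor p.2 (!A.m e0)) := by
    intro h
    have := congrArg Prod.snd h
    simp at this
  have hP : ¬ ∀ e b, A.M e ≠ some (p.1, b) := fun h => h e0 p.2 hM
  have e3 := card_add (q := fun y : E' × Bool => (A.ins e0 p hM hx).h' y = some w ∧
      ∀ e b, (A.ins e0 p hM hx).M e ≠ some (y.1, b))
    (p := fun y => A.h' y = w ∧ ∀ e b, A.M e ≠ some (y.1, b)) (p.1, xor p.2 (A.m e0))
    (w = A.h (inr x)) (fun h => hP h.2) (fun y => by
      rw [ins_P, ins_h', insH'_some]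
      constructor
      · rintro ⟨⟨h1, h2⟩, h3 | h3⟩
        · exact Or.inl ⟨h2, h3⟩
        · have := i0 y h3 h1
          subst this
          exact Or.inr ⟨rfl, h2 ▸ hw0⟩
      · rintro (⟨h1, h2⟩ | ⟨rfl, h2⟩)
        · refine ⟨⟨?_, h1⟩, Or.inl h2⟩
          rintro rfl
          exact hP h2
        · exact ⟨⟨hne, hw0.trans h2.symm⟩, Or.inr rfl⟩)
  rw [e1, e2, e3]
  omega

theorem phi_pred (s r : ℕ) (hr : r ≠ 0) : phi s r = r * phi s (r - 1) := by
  unfold phi
  obtain ⟨r, rfl⟩ := Nat.exists_eq_succ_of_ne_zero hr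
  split_ifs
  · rw [Nat.succ_sub_one, Nat.factorial_succ]
    push_cast
    ring
  · simp

theorem ins_wt [Finite L] [Fintype W] : A.wt = - A.r (A.h (inr x)) * (A.ins e0 p hM hx).wt := by
  unfold wt
  rw [A.card_ins e0 p hM hx, Fintype.prod_option, ins_r_none, ins_s_none,
    ← Finset.mul_prod_erase Finset.univ _ (Finset.mem_univ (A.h (inr x))),
    ← Finset.mul_prod_erase Finset.univ (fun w => phi ((A.ins e0 p hM hx).s (some w))
      ((A.ins e0 p hM hx).r (some w))) (Finset.mem_univ (A.h (inr x)))]
  have h1 := A.ins_r_some e0 p hM hx (A.h (inr x))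
  rw [if_pos rfl] at h1
  have h2 : ∏ w ∈ Finset.univ.erase (A.h (inr x)), phi (A.s w) (A.r w) =
      ∏ w ∈ Finset.univ.erase (A.h (inr x)), phi ((A.ins e0 p hM hx).s (some w))
        ((A.ins e0 p hM hx).r (some w)) := by
    apply Finset.prod_congr rfl
    intro w hw
    rw [A.ins_r_some e0 p hM hx w, if_neg (Finset.ne_of_mem_erase hw), ins_s_some, add_zero]
  rw [h2, phi_pred _ _ (by omega : A.r (A.h (inr x)) ≠ 0), ins_s_some,
    show A.r (A.h (inr x)) - 1 = (A.ins e0 p hM hx).r (some (A.h (inr x))) by omega]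
  have h3 : phi 3 0 = 1 := by simp [phi]
  rw [h3, pow_succ]
  ring

end

end Cf

end Vale.Agent.P273.Num
end
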