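import Vale.Agent.P273.D14.H599.LKA

/-!
The values of the functional `G` after adding a leaf: undecorated graphs.
-/

noncomputable section
namespace Vale.Agent.P273.D14.H599
open Sum Vale.Agent.P273 Vale.Agent.P273.D14.H387
open scoped Classical

variable {V E M : Type} (ε : M ⊕ Bool ≃ LL) (f : (E × Bool) ⊕ M → V × ℕ) (v w : V) (c : ℕ)

/-- The sign for the types 1 and 2. -/
def sg1 : ℚ := sgM (fun x => (ε.symm x).elim (fun m => some (f (inr m)).1) (fun _ => (none : Option V)))

/-- The sign for the type 3. -/
def sg3 : ℚ := sgM (fun x => (ε.symm x).elim (fun m => if (f (inr m)).1 = w ∧ (f (inr m)).2 = 0 then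
  (none : Option (Option V)) else some (some (f (inr m)).1)) (fun _ => some none))

/-- The ends of the half-edges. -/
def he (f : (E × Bool) ⊕ M → V × ℕ) : E × Bool → V := fun y => (f (inl y)).1

lemma legs_lf : (fun x => (lf ε (Q.ad f v c) (inr x)).1) = fun x =>
    (ε.symm x).elim (fun m => some (f (inr m)).1) (fun _ => (none : Option V)) := by
  funext x
  rw [lf_inr]
  rcases ε.symm x with m | b <;> rfl

lemma he_lf : (fun y => (lf ε (Q.ad f v c) (inl y)).1) = lfU (he f) v := by
  funext ⟨e, b⟩
  rcases e with _ | e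
  · cases b <;> rfl
  · rfl

lemma val_lf (φ : Und) : val φ (fun y => (lf ε (Q.ad f v c) y).1) =
    sg1 ε f * φ (Option V) (Option E) (lfU (he f) v) := by
  unfold val sg1
  rw [legs_lf, he_lf]

/-- Exchange of the last two edges. -/
def sw2 (y : Option (Option E) × Bool) : Option (Option E) × Bool :=
  (y.1.elim (some none) fun e => e.elim none fun e => some (some e), y.2)

lemma sw2_sw2 (y : Option (Option E) × Bool) : sw2 (sw2 y) = y := by
  rcases y with ⟨_ | _ | e, b⟩ <;> rfl

lemma val_lp {φ : Und} (hφ : φ.Inv) : val φ (H387.lp (fun y => (lf ε (Q.ad f v c) y).1) (some w)) =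
    sg1 ε f * φ (Option V) (Option (Option E)) (lfU (lpU (he f) w) v) := by
  unfold val sg1
  have e1 : (fun x => H387.lp (fun y => (lf ε (Q.ad f v c) y).1) (some w) (inr x)) = fun x =>
    (ε.symm x).elim (fun m => some (f (inr m)).1) (fun _ => (none : Option V)) := legs_lf ε f v c
  rw [e1]
  congr 1
  apply hφ _ _ _ _ _ _ id sw2 Function.bijective_id
    (Function.Involutive.bijective sw2_sw2)
  · rintro (_ | _ | e) <;> rfl
  · rintro ⟨_ | _ | e, _ | _⟩ <;> rfl

/-- The sets of half-edges and legs that move to the new vertex. -/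
def mkS (T : Set (E × Bool)) (v' : Option V) : Set ((Option E × Bool) ⊕ LL) :=
  {z | z.elim (fun y => y.1.elim (y.2 = false ∧ v' = none) fun e => (e, y.2) ∈ T)
    fun n => (ε.symm n).elim (fun m => (f (inr m)).1 = w ∧ (f (inr m)).2 = 0) fun _ => False}

variable {ε f v w}

lemma mkS_e {T : Set (E × Bool)} {v' : Option V} {e : E} {b : Bool} :
    inl (some e, b) ∈ mkS ε f w T v' ↔ (e, b) ∈ T := Iff.rfl

lemma mkS_n {T : Set (E × Bool)} {v' : Option V} {b : Bool} :
    inl (none, b) ∈ mkS ε f w T v' ↔ b = false ∧ v' = none := Iff.rfl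

lemma mkS_l {T : Set (E × Bool)} {v' : Option V} {n : LL} :
    inr n ∈ mkS ε f w T v' ↔
      (ε.symm n).elim (fun m => (f (inr m)).1 = w ∧ (f (inr m)).2 = 0) fun _ => False := Iff.rfl

lemma bijOn : Set.BijOn (fun p : Set (E × Bool) × Option V => mkS ε f w p.1 p.2)
    {p | (∀ y ∈ p.1, he f y = w) ∧ p.2.getD w = v} {S | Spl (lf ε (Q.ad f v 0)) (some w) S} := by
  refine ⟨?_, ?_, ?_⟩
  · rintro ⟨T, v'⟩ ⟨h1, h2⟩
    simp only at h1 h2
    constructor
    · rintro (⟨_ | e, b⟩ | n) hy
      · rw [mkS_n] at hy
        obtain ⟨rfl, rfl⟩ := hy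
        exact congrArg some h2.symm
      · exact congrArg some (h1 _ (mkS_e.1 hy))
      · rw [mkS_l] at hy
        rw [lf_inr]
        rcases hn : ε.symm n with m | b
        · rw [hn] at hy
          exact congrArg some hy.1
        · rw [hn] at hy
          exact hy.elim
    · intro n hn
      rw [mkS_l]
      rw [lf_inr] at hn ⊢
      rcases hn' : ε.symm n with m | b
      · rw [hn'] at hn
        have hn'' : (f (inr m)).1 = w := Option.some_injective _ hn
        exact ⟨fun h => h.2, fun h => ⟨hn'', h⟩⟩
      · rw [hn'] at hn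
        exact absurd hn (by simp)
  · rintro ⟨T, v'⟩ ⟨h1, h2⟩ ⟨T₁, v₁⟩ ⟨h3, h4⟩ hS
    simp only at hS h2 h4
    have hT : T = T₁ := by
      ext ⟨e, b⟩
      rw [← mkS_e (ε := ε) (f := f) (w := w) (v' := v'), hS, mkS_e]
    have hv : v' = none ↔ v₁ = none := by
      have h5 : inl (none, false) ∈ mkS ε f w T v' ↔ inl (none, false) ∈ mkS ε f w T₁ v₁ := by
        rw [hS]
      rw [mkS_n, mkS_n] at h5
      simpa using h5
    have hv' : v' = v₁ := by
      rcases v' with _ | v'
      · exact (hv.1 rfl).symm
      · rcases v₁ with _ | v₁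
        · exact hv.2 rfl
        · simp only [Option.getD_some] at h2 h4
          rw [h2, h4]
    rw [hT, hv']
  · rintro S ⟨h1, h2⟩
    refine ⟨({y | inl (some y.1, y.2) ∈ S}, if inl (none, false) ∈ S then none else some v),
      ⟨?_, ?_⟩, ?_⟩
    · rintro ⟨e, b⟩ hy
      exact Option.some_injective _ (h1 _ hy)
    · simp only
      split_ifs with h3
      · exact (Option.some_injective _ (h1 _ h3)).symm
      · rfl
    · ext (⟨_ | e, _ | _⟩ | n)
      · rw [mkS_n]
        split_ifs with h3
        · simp [h3]
        · simp [h3]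
      · rw [mkS_n]
        constructor
        · rintro ⟨h3, -⟩
          simp at h3
        · intro h3
          have := h1 _ h3
          exact absurd this (by simp [lf])
      · exact Iff.rfl
      · exact Iff.rfl
      · rw [mkS_l]
        rcases hn : ε.symm n with m | b
        · have h3 : lf ε (Q.ad f v 0) (inr n) = (f (inr m)).map some id := by
            rw [lf_inr, hn]; rfl
          constructor
          · rintro ⟨h4, h5⟩
            rw [h2 n (by rw [h3]; exact congrArg some h4), h3]
            exact h5
          · intro h4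
            have h5 := h1 _ h4
            rw [h3] at h5
            have h6 := (h2 n (by rw [h3]; exact h5)).1 h4
            rw [h3] at h6
            exact ⟨Option.some_injective _ h5, h6⟩
        · constructor
          · exact fun h => h.elim
          · intro h4
            have h5 := h1 _ h4
            rw [lf_inr, hn] at h5
            exact absurd h5 (by simp)

/-- Exchange of the last two vertices. -/
def swv (u : Option (Option V)) : Option (Option V) :=
  u.elim (some none) fun v => v.elim none fun v => some (some v)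

lemma swv_swv (u : Option (Option V)) : swv (swv u) = u := by
  rcases u with _ | _ | v <;> rfl

/-- Reordering of the edges. -/
def swe : Option E ⊕ Bool ≃ Option (E ⊕ Bool) where
  toFun y := y.elim (fun e => e.map inl) fun b => some (inr b)
  invFun y := y.elim (inl none) fun z => z.elim (fun e => inl (some e)) inr
  left_inv := by rintro ((_ | e) | b) <;> rfl
  right_inv := by rintro (_ | e | b) <;> rfl

lemma val_db {φ : Und} (hφ : φ.Inv) {T : Set (E × Bool)} {v' : Option V}
    (hv : v'.getD w = v) : val φ (db (fun y => (lf ε (Q.ad f v 0) y).1) (some w) (mkS ε f w T v')) =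
    sg3 ε f w * φ (Option (Option V)) (Option (E ⊕ Bool)) (lfU (dbU (he f) w T) v') := by
  unfold val sg3
  congr 1
  · congr 1
    funext x
    show (if inr x ∈ mkS ε f w T v' then none else some (lf ε (Q.ad f v 0) (inr x)).1) = _
    simp only [mkS_l, lf_inr]
    rcases ε.symm x with m | b
    · by_cases h : (f (inr m)).1 = w ∧ (f (inr m)).2 = 0
      · exact (if_pos h).trans (if_pos h).symm
      · exact (if_neg h).trans (if_neg h).symm
    · simp
  · apply hφ _ _ _ _ _ _ swv (fun y => (swe y.1, y.2)) (Function.Involutive.bijective swv_swv)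
    · exact (Equiv.prodCongr swe (Equiv.refl Bool)).bijective
    · exact fun _ => rfl
    · rintro ⟨(_ | e) | b', b⟩
      · cases b
        · show some v' = swv (if inl (none, false) ∈ mkS ε f w T v' then none else some (some v))
          rw [mkS_n]
          rcases v' with _ | v'
          · rw [if_pos ⟨rfl, rfl⟩]; rfl
          · rw [if_neg (by simp)]
            have : v' = v := hv
            rw [this]; rfl
        · show none = swv (if inl (none, true) ∈ mkS ε f w T v' then none else some none)
          rw [mkS_n, if_neg (by simp)]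
          rfl
      · show some (if (e, b) ∈ T then none else some (he f (e, b))) =
          swv (if inl (some e, b) ∈ mkS ε f w T v' then none else some (some (f (inl (e, b))).1))
        rw [mkS_e]
        split_ifs <;> rfl
      · cases b <;> rfl

lemma sum_db [Finite V] [Finite E] {φ : Und} (hφ : φ.Inv) (hLI : LI φ) (w : V)
    (hc : Nat.card E + 2 = Nat.card V + 2) :
    ∑ᶠ v, ∑ᶠ (S) (_ : Spl (lf ε (Q.ad f v 0)) (some w) S),
      val φ (db (fun y => (lf ε (Q.ad f v 0) y).1) (some w) S) = 0 := by
  have := Fintype.ofFinite V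
  have := Fintype.ofFinite E
  have e1 : ∀ v, ∑ᶠ (S) (_ : Spl (lf ε (Q.ad f v 0)) (some w) S),
      val φ (db (fun y => (lf ε (Q.ad f v 0) y).1) (some w) S) =
      ∑ p : Set (E × Bool) × Option V, if (∀ y ∈ p.1, he f y = w) ∧ p.2.getD w = v then
        sg3 ε f w * φ (Option (Option V)) (Option (E ⊕ Bool)) (lfU (dbU (he f) w p.1) p.2) else 0 := by
    intro v
    have h1 := finsum_mem_eq_of_bijOn (f := fun p : Set (E × Bool) × Option V =>
      sg3 ε f w * φ (Option (Option V)) (Option (E ⊕ Bool)) (lfU (dbU (he f) w p.1) p.2))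
      (g := fun S => val φ (db (fun y => (lf ε (Q.ad f v 0) y).1) (some w) S)) _
      (bijOn (ε := ε) (f := f) (v := v) (w := w)) (fun p hp => (val_db hφ hp.2).symm)
    refine h1.symm.trans ?_
    rw [finsum_eq_sum_of_fintype]
    apply Finset.sum_congr rfl
    intro p _
    rw [finsum_eq_if]
    rfl
  rw [finsum_eq_sum_of_fintype, Finset.sum_congr rfl fun v _ => e1 v, Finset.sum_comm,
    Fintype.sum_prod_type]
  apply Finset.sum_eq_zero
  intro T _
  by_cases hT : ∀ y ∈ T, he f y = w
  · have h2 := hLI (Option V) (E ⊕ Bool) (dbU (he f) w T) (by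
      have hB : Nat.card Bool = 2 := by simp
      rw [Nat.card_sum, Finite.card_option, hB]
      omega)
    rw [finsum_eq_sum_of_fintype] at h2
    have h3 : ∀ v' : Option V, (∑ v, if (∀ y ∈ T, he f y = w) ∧ v'.getD w = v then
        sg3 ε f w * φ (Option (Option V)) (Option (E ⊕ Bool)) (lfU (dbU (he f) w T) v') else 0) =
        sg3 ε f w * φ (Option (Option V)) (Option (E ⊕ Bool)) (lfU (dbU (he f) w T) v') := by
      intro v'
      rw [Finset.sum_eq_single (v'.getD w)]
      · rw [if_pos ⟨hT, rfl⟩]
      · intro u _ hu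
        rw [if_neg (fun h => hu h.2.symm)]
      · intro h
        exact absurd (Finset.mem_univ _) h
    rw [Finset.sum_congr rfl fun v' _ => h3 v', ← Finset.mul_sum, h2, mul_zero]
  · apply Finset.sum_eq_zero
    intro v' _
    apply Finset.sum_eq_zero
    intro v _
    rw [if_neg (fun h => hT h.1)]

end Vale.Agent.P273.D14.H599
end
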