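import Vale.Agent.P273.D14.H599.Wk
import Mathlib.Combinatorics.SimpleGraph.Acyclic

/-! Contractions of trees. -/

noncomputable section

namespace Vale.Agent.P273.Num

open Sum Vale.Agent.P273.Q
open scoped Classical Nat

variable {V W D W₁ : Type}

/-- The edges `d` with `P d`, attached by `h`, form a forest, and `c` contracts each of its
components, one for each element of `V`. -/
structure Trees (P : D → Prop) (h : D × Bool → W) (c : W → V) : Prop where
  edge : ∀ d, P d → c (h (d, true)) = c (h (d, false))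
  surj : ∀ v, ∃ w, c w = v
  conn : ∀ s : Set W, (∀ d, P d → (h (d, true) ∈ s ↔ h (d, false) ∈ s)) →
    ∀ w w', c w = c w' → w ∈ s → w' ∈ s
  card : ∀ v, Nat.card {d // P d ∧ c (h (d, true)) = v} + 1 = Nat.card {w // c w = v}

/-- A connected graph has at most one vertex more than it has edges. -/
theorem card_le_of_conn [Finite W] [Finite D] (P : D → Prop) (h : D × Bool → W) (c : W → V)
    (edge : ∀ d, P d → c (h (d, true)) = c (h (d, false)))
    (surj : ∀ v, ∃ w, c w = v)
    (conn : ∀ s : Set W, (∀ d, P d → (h (d, true) ∈ s ↔ h (d, false) ∈ s)) →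
      ∀ w w', c w = c w' → w ∈ s → w' ∈ s) (v : V) :
    Nat.card {w // c w = v} ≤ Nat.card {d // P d ∧ c (h (d, true)) = v} + 1 := by
  let G : SimpleGraph {w // c w = v} := SimpleGraph.fromRel fun a b =>
    ∃ d, P d ∧ h (d, true) = a.1 ∧ h (d, false) = b.1
  have hc : G.Connected := by
    obtain ⟨w0, hw0⟩ := surj v
    have : Nonempty {w // c w = v} := ⟨⟨w0, hw0⟩⟩
    refine ⟨fun a b => ?_⟩
    have key := conn {w | ∀ hw : c w = v, G.Reachable a ⟨w, hw⟩} ?_ a.1 b.1
      (a.2.trans b.2.symm) ?_
    · exact key b.2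
    · intro d hd
      have e := edge d hd
      have adj : ∀ (h1 : c (h (d, true)) = v) (h2 : c (h (d, false)) = v),
          G.Reachable ⟨h (d, true), h1⟩ ⟨h (d, false), h2⟩ := by
        intro h1 h2
        by_cases hne : h (d, true) = h (d, false)
        · have : (⟨h (d, true), h1⟩ : {w // c w = v}) = ⟨h (d, false), h2⟩ := Subtype.ext hne
          rw [this]
        · apply SimpleGraph.Adj.reachable
          rw [SimpleGraph.fromRel_adj]
          exact ⟨fun h' => hne (congrArg Subtype.val h'), Or.inl ⟨d, hd, rfl, rfl⟩⟩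
      simp only [Set.mem_ofPred_eq]
      constructor
      · intro H hw
        exact (H (e.trans hw)).trans (adj _ _)
      · intro H hw
        exact (H (e.symm.trans hw)).trans (adj _ _).symm
    · intro hw
      exact SimpleGraph.Reachable.refl _
  refine hc.card_vert_le_card_edgeSet_add_one.trans (Nat.add_le_add_right ?_ 1)
  have ex : ∀ e : G.edgeSet, ∃ d, P d ∧ ∃ h1 : c (h (d, true)) = v, ∃ h2 : c (h (d, false)) = v,
      e.1 = s(⟨h (d, true), h1⟩, ⟨h (d, false), h2⟩) := by
    rintro ⟨e, he⟩
    induction e using Sym2.ind with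
    | _ a b =>
      rw [SimpleGraph.mem_edgeSet, SimpleGraph.fromRel_adj] at he
      obtain ⟨hne, ⟨d, hd, h1, h2⟩ | ⟨d, hd, h1, h2⟩⟩ := he
      · refine ⟨d, hd, h1 ▸ a.2, h2 ▸ b.2, ?_⟩
        simp only [h1, h2]
      · refine ⟨d, hd, h1 ▸ b.2, h2 ▸ a.2, ?_⟩
        simp only [h1, h2]
        exact Sym2.eq_swap
  choose F hF h1 h2 hE using ex
  let Fn : G.edgeSet → {d // P d ∧ c (h (d, true)) = v} := fun e => ⟨F e, hF e, h1 e⟩
  apply Nat.card_le_card_of_injective Fn
  intro e e' hee
  have hF' : F e = F e' := congrArg (fun z => z.1) hee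
  apply Subtype.ext
  rw [hE e, hE e']
  congr 1 <;> simp [hF']

theorem contr_iff [Finite W] [Finite D] (P : D → Prop) (g : W → ℕ) (h : D × Bool → W)
    (γ : V → ℕ) (hγ : ∀ v, γ v = 0) (c : W → V) :
    Contr g (fun y : {d // P d} × Bool => h (y.1.1, y.2)) γ c ↔ g = 0 ∧ Trees P h c := by
  have hcard : ∀ v, Nat.card {d : {d // P d} // c (h (d.1, true)) = v} =
      Nat.card {d // P d ∧ c (h (d, true)) = v} := fun v =>
    Nat.card_congr ⟨fun d => ⟨d.1.1, d.1.2, d.2⟩, fun d => ⟨⟨d.1, d.2.1⟩, d.2.2⟩, fun _ => rfl,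
      fun _ => rfl⟩
  constructor
  · rintro ⟨he, hv⟩
    have edge : ∀ d, P d → c (h (d, true)) = c (h (d, false)) := fun d hd => he ⟨d, hd⟩
    have surj : ∀ v, ∃ w, c w = v := fun v => (hv v).1
    have conn : ∀ s : Set W, (∀ d, P d → (h (d, true) ∈ s ↔ h (d, false) ∈ s)) →
      ∀ w w', c w = c w' → w ∈ s → w' ∈ s := fun s hs w w' hw hws =>
      (hv (c w)).2.1 s (fun d => hs d.1 d.2) w w' rfl hw.symm hws
    have hsum : ∀ v, ∑ᶠ (w) (_ : c w = v), g w = 0 ∧
        Nat.card {d // P d ∧ c (h (d, true)) = v} + 1 = Nat.card {w // c w = v} := by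
      intro v
      have h1 := (hv v).2.2
      have h2 := card_le_of_conn P h c edge surj conn v
      simp only at h1
      rw [hcard v, hγ v] at h1
      omega
    refine ⟨?_, edge, surj, conn, fun v => (hsum v).2⟩
    funext w
    have h0 := (hsum (c w)).1
    have : ∑ᶠ (_ : c w = c w), g w ≤ ∑ᶠ (w') (_ : c w' = c w), g w' :=
      single_le_finsum (f := fun w' => ∑ᶠ (_ : c w' = c w), g w') w (Set.toFinite _)
        fun _ => Nat.zero_le _
    simp only [finsum_true] at this
    simp only [Pi.zero_apply]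
    omega
  · rintro ⟨rfl, edge, surj, conn, card⟩
    refine ⟨fun d => edge d.1 d.2, fun v => ⟨surj v, fun s hs w w' hw hw' hws =>
      conn s (fun d hd => hs ⟨d, hd⟩) w w' (hw.trans hw'.symm) hws, ?_⟩⟩
    simp only [Pi.zero_apply, finsum_zero]
    rw [hcard v, hγ v, ← card v]
    omega

/-- The number of vertices. -/
theorem Trees.card_eq [Finite W] [Finite D] {P : D → Prop} {h : D × Bool → W} {c : W → V}
    (T : Trees P h c) : Nat.card W = Nat.card {d // P d} + Nat.card V := by
  have : Finite V := Finite.of_surjective c T.surj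
  have := Fintype.ofFinite V
  have h1 : Nat.card W = ∑ v : V, Nat.card {w // c w = v} := by
    rw [← Nat.card_congr (Equiv.sigmaFiberEquiv c), Nat.card_sigma]
  have h2 : Nat.card {d // P d} = ∑ v : V, Nat.card {d // P d ∧ c (h (d, true)) = v} := by
    rw [← Nat.card_congr (Equiv.sigmaFiberEquiv fun d : {d // P d} => c (h (d.1, true))),
      Nat.card_sigma]
    exact Finset.sum_congr rfl fun v _ => Nat.card_congr
      ⟨fun d => ⟨d.1.1, d.1.2, d.2⟩, fun d => ⟨⟨d.1, d.2.1⟩, d.2.2⟩, fun _ => rfl, fun _ => rfl⟩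
  rw [h1, h2, Nat.card_eq_fintype_card, ← Finset.card_univ, Finset.card_eq_sum_ones,
    ← Finset.sum_add_distrib]
  exact Finset.sum_congr rfl fun v _ => (T.card v).symm

theorem Trees.congr {P P' : D → Prop} {h : D × Bool → W} {h' : D × Bool → W₁} {c : W → V}
    {c' : W₁ → V} (σ : W ≃ W₁) (hP : ∀ d, P' d ↔ P d) (hh : ∀ y, h' y = σ (h y))
    (hc : ∀ w, c' (σ w) = c w) (T : Trees P h c) : Trees P' h' c' where
  edge d hd := by rw [hh, hh, hc, hc]; exact T.edge d ((hP d).1 hd)
  surj v := by
    obtain ⟨w, hw⟩ := T.surj v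
    exact ⟨σ w, (hc w).trans hw⟩
  conn s hs w w' hw hws := by
    obtain ⟨u, rfl⟩ := σ.surjective w
    obtain ⟨u', rfl⟩ := σ.surjective w'
    rw [hc, hc] at hw
    exact T.conn (σ ⁻¹' s) (fun d hd => by
      have := hs d ((hP d).2 hd)
      rw [hh, hh] at this
      exact this) u u' hw hws
  card v := by
    rw [← Nat.card_congr (σ.subtypeEquiv (p := fun w => c w = v) (q := fun w => c' w = v)
      fun w => by rw [hc]), ← T.card v]
    congr 1
    apply Nat.card_congr
    exact Equiv.subtypeEquivRight fun d => by rw [hP, hh, hc]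

/-- A vertex `none` attached by one more edge. -/
theorem Trees.pendant [Finite W] [Finite D] {P P' : D → Prop} {h : D × Bool → W}
    {h' : D × Bool → Option W}
    {c : W → V} {c' : Option W → V} (d0 : D) (t : Bool) (hP : ∀ d, P' d ↔ P d ∨ d = d0)
    (hd0 : ¬ P d0) (hh : ∀ d, P d → ∀ s, h' (d, s) = some (h (d, s))) (h0 : h' (d0, t) = none)
    (u : W) (h1 : h' (d0, !t) = some u) (hc : ∀ w, c' (some w) = c w) (hc0 : c' none = c u) :
    Trees P' h' c' ↔ Trees P h c := by
  have hd0' : P' d0 := (hP d0).2 (Or.inr rfl)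
  have hcd : ∀ s, c' (h' (d0, s)) = c u := by
    intro s
    by_cases hs : s = t
    · rw [hs, h0, hc0]
    · rw [show s = !t by cases s <;> cases t <;> simp_all, h1, hc]
  have hcd1 : ∀ d, P d → ∀ s, c' (h' (d, s)) = c (h (d, s)) := fun d hd s => by rw [hh d hd, hc]
  have cardE : ∀ v, Nat.card {d // P' d ∧ c' (h' (d, true)) = v} =
      Nat.card {d // P d ∧ c (h (d, true)) = v} + if c u = v then 1 else 0 := by
    intro v
    have e1 : {d | P' d ∧ c' (h' (d, true)) = v} =
        {d | P d ∧ c (h (d, true)) = v} ∪ {d | d = d0 ∧ c u = v} := by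
      ext d
      simp only [Set.mem_ofPred_eq, Set.mem_union, hP]
      constructor
      · rintro ⟨hd | rfl, h2⟩
        · exact Or.inl ⟨hd, by rw [← hcd1 d hd]; exact h2⟩
        · exact Or.inr ⟨rfl, by rw [← hcd true]; exact h2⟩
      · rintro (⟨hd, h2⟩ | ⟨rfl, h2⟩)
        · exact ⟨Or.inl hd, by rw [hcd1 d hd]; exact h2⟩
        · exact ⟨Or.inr rfl, by rw [hcd]; exact h2⟩
    have e2 : Disjoint {d | P d ∧ c (h (d, true)) = v} {d | d = d0 ∧ c u = v} := by
      rw [Set.disjoint_left]
      rintro d ⟨hd, _⟩ ⟨rfl, _⟩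
      exact hd0 hd
    change Set.ncard {d | P' d ∧ c' (h' (d, true)) = v} = Set.ncard {d | P d ∧ c (h (d, true)) = v} + _
    rw [e1, Set.ncard_union_eq e2 (Set.toFinite _) (Set.toFinite _)]
    congr 1
    split_ifs with hu
    · rw [show {d | d = d0 ∧ c u = v} = {d0} by ext; simp [hu], Set.ncard_singleton]
    · rw [show {d | d = d0 ∧ c u = v} = ∅ by ext; simp [hu], Set.ncard_empty]
  have cardW : ∀ v, Nat.card {w // c' w = v} =
      Nat.card {w // c w = v} + if c u = v then 1 else 0 := by
    intro v
    have e1 : {w | c' w = v} = some '' {w | c w = v} ∪ {w | w = none ∧ c u = v} := by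
      ext w
      cases w with
      | none => simp [hc0]
      | some w => simp [hc]
    have e2 : Disjoint (some '' {w | c w = v}) {w | w = none ∧ c u = v} := by
      rw [Set.disjoint_left]
      rintro _ ⟨d, _, rfl⟩ ⟨h, _⟩
      simp at h
    change Set.ncard {w | c' w = v} = Set.ncard {w | c w = v} + _
    rw [e1, Set.ncard_union_eq e2 (Set.toFinite _) (Set.toFinite _),
      Set.ncard_image_of_injective _ (Option.some_injective _)]
    congr 1
    split_ifs with hu
    · rw [show {w : Option W | w = none ∧ c u = v} = {none} by ext; simp [hu],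
        Set.ncard_singleton]
    · rw [show {w : Option W | w = none ∧ c u = v} = ∅ by ext; simp [hu], Set.ncard_empty]
  constructor
  · intro T
    refine ⟨fun d hd => ?_, fun v => ?_, fun s hs w w' hw hws => ?_, fun v => ?_⟩
    · have := T.edge d ((hP d).2 (Or.inl hd))
      rwa [hcd1 d hd, hcd1 d hd] at this
    · obtain ⟨w, hw⟩ := T.surj v
      cases w with
      | none => exact ⟨u, by rw [← hc0]; exact hw⟩
      | some w => exact ⟨w, by rw [← hc]; exact hw⟩
    · have := T.conn (some '' s ∪ {z | z = none ∧ u ∈ s}) (fun d hd => ?_) (some w) (some w')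
        (by rw [hc, hc]; exact hw) (Or.inl ⟨w, hws, rfl⟩)
      · simpa using this
      · rcases (hP d).1 hd with hd | rfl
        · rw [hh d hd, hh d hd]
          simpa using hs d hd
        · have key : ∀ s', h' (d, s') ∈ some '' s ∪ {z | z = none ∧ u ∈ s} ↔ u ∈ s := by
            intro s'
            by_cases hs' : s' = t
            · rw [hs', h0]; simp
            · rw [show s' = !t by cases s' <;> cases t <;> simp_all, h1]; simp
          rw [key, key]
    · have h2 := T.card v
      rw [cardE v, cardW v] at h2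
      omega
  · intro T
    refine ⟨fun d hd => ?_, fun v => ?_, fun s hs w w' hw hws => ?_, fun v => ?_⟩
    · rcases (hP d).1 hd with hd | rfl
      · rw [hcd1 d hd, hcd1 d hd]; exact T.edge d hd
      · rw [hcd, hcd]
    · obtain ⟨w, hw⟩ := T.surj v
      exact ⟨some w, by rw [hc]; exact hw⟩
    · have hn : none ∈ s ↔ some u ∈ s := by
        have := hs d0 hd0'
        cases t <;> simp only [Bool.not_true, Bool.not_false] at h1 <;> rw [h0, h1] at this
        · exact this.symm
        · exact this
      have key := fun a b => T.conn (some ⁻¹' s) (fun d hd => by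
        have := hs d ((hP d).2 (Or.inl hd))
        rwa [hh d hd, hh d hd] at this) a b
      cases w with
      | none =>
        cases w' with
        | none => exact hws
        | some w' =>
          rw [hc0, hc] at hw
          exact key u w' hw (hn.1 hws)
      | some w =>
        cases w' with
        | none =>
          rw [hc0, hc] at hw
          exact hn.2 (key w u hw hws)
        | some w' =>
          rw [hc, hc] at hw
          exact key w w' hw hws
    · have h2 := T.card v
      rw [cardE v, cardW v]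
      omega

end Vale.Agent.P273.Num
end
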