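import Vale.Agent.P273.D14.H593.NumX

/-! The intersection numbers of genus `0` with psi exponents `0` and `1`. -/

noncomputable section

namespace Vale.Agent.P273.Num

open Sum Vale.Agent.P273.Q
open scoped Classical Nat

theorem wk_ones (r : ℕ) : wk 0 r (Multiset.replicate r 1) = 0 := by
  induction r with
  | zero => rw [wk]
  | succ r ih =>
    rw [wk]
    have h0 : (0 : ℕ) ∉ Multiset.replicate (r + 1) 1 := by
      simp [Multiset.mem_replicate]
    have h1 : (1 : ℕ) ∈ Multiset.replicate (r + 1) 1 := by
      simp [Multiset.mem_replicate]
    have h2 : Multiset.replicate (r + 1) 1 ≠ ({0, 0, 0} : Multiset ℕ) := by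
      intro h
      rw [h] at h0
      simp at h0
    rw [if_neg (fun h => h2 h.2), if_neg (fun h => by simp at h), if_neg (fun h => by simp at h),
      if_neg (fun h => by simp at h), if_neg (fun h => by simp at h), if_neg h0, if_pos h1]
    rw [Multiset.replicate_succ, Multiset.erase_cons_head, ih, mul_zero]

theorem wk_zero (r s : ℕ) :
    wk 0 (r + s) (Multiset.replicate r 1 + Multiset.replicate s 0) =
      if s = 3 then (r ! : ℚ) else 0 := by
  induction r generalizing s with
  | zero =>
    cases s with
    | zero => rw [if_neg (by norm_num)]; simp [wk]
    | succ s =>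
      rw [show 0 + (s + 1) = s + 1 by omega, wk]
      simp only [Multiset.replicate_zero, zero_add]
      by_cases h : s = 2
      · subst h
        rw [if_pos ⟨trivial, by rfl⟩]
        simp
      · have h2 : Multiset.replicate (s + 1) 0 ≠ ({0, 0, 0} : Multiset ℕ) := by
          intro h'
          apply h
          have := congrArg Multiset.card h'
          simp at this
          omega
        have h0 : (0 : ℕ) ∈ Multiset.replicate (s + 1) 0 := by
          simp [Multiset.mem_replicate]
        rw [if_neg (fun h => h2 h.2), if_neg (fun h => by simp at h),
          if_neg (fun h => by simp at h),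
          if_neg (fun h => by simp at h), if_neg (fun h => by simp at h), if_pos h0,
          if_neg (by omega)]
        rw [Multiset.replicate_succ, Multiset.erase_cons_head]
        simp
  | succ r ih =>
    cases s with
    | zero =>
      rw [if_neg (by norm_num)]
      simp only [Multiset.replicate_zero, add_zero]
      exact wk_ones (r + 1)
    | succ s =>
      rw [show r + 1 + (s + 1) = (r + (s + 1)) + 1 by omega, wk]
      have h1 : (1 : ℕ) ∈ Multiset.replicate (r + 1) 1 + Multiset.replicate (s + 1) 0 := by
        simp [Multiset.mem_replicate]
      have h0 : (0 : ℕ) ∈ Multiset.replicate (r + 1) 1 + Multiset.replicate (s + 1) 0 := by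
        simp [Multiset.mem_replicate]
      have h2 : Multiset.replicate (r + 1) 1 + Multiset.replicate (s + 1) 0 ≠
          ({0, 0, 0} : Multiset ℕ) := by
        intro h'
        rw [h'] at h1
        simp at h1
      rw [if_neg (fun h => h2 h.2), if_neg (fun h => by simp at h),
          if_neg (fun h => by simp at h),
          if_neg (fun h => by simp at h), if_neg (fun h => by simp at h), if_pos h0]
      have e0 : (Multiset.replicate (r + 1) 1 + Multiset.replicate (s + 1) 0).erase 0 =
          Multiset.replicate (r + 1) 1 + Multiset.replicate s 0 := by
        rw [Multiset.erase_add_right_pos _ (by simp [Multiset.mem_replicate]),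
          Multiset.replicate_succ 0 s, Multiset.erase_cons_head]
      rw [e0, Multiset.map_add, Multiset.sum_add]
      have e1 : (Multiset.replicate (r + 1) 1 + Multiset.replicate s 0).erase 1 =
          Multiset.replicate r 1 + Multiset.replicate s 0 := by
        rw [Multiset.erase_add_left_pos _ (by simp [Multiset.mem_replicate]),
          Multiset.replicate_succ 1 r, Multiset.erase_cons_head]
      simp only [Multiset.map_replicate, Multiset.sum_replicate, one_ne_zero, if_false, if_true,
        smul_zero, add_zero, e1]
      rw [show 1 - 1 = 0 by rfl, ← Multiset.add_cons, ← Multiset.replicate_succ, ih (s + 1)]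
      split_ifs <;> simp [Nat.factorial_succ]

theorem wk_zero' (m : Multiset ℕ) (r s : ℕ)
    (h : m = Multiset.replicate r 1 + Multiset.replicate s 0) :
    wk 0 (Multiset.card m) m = if s = 3 then (r ! : ℚ) else 0 := by
  rw [← wk_zero, h]
  congr 1
  simp

end Vale.Agent.P273.Num
end
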